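import Vale.Agent.P236Z.Nb.Eta1
import Vale.Agent.P236Z.Q.Psi
import Vale.Agent.P236Z.Q.Psg

/-!
# P236, block NB: the class `α`
-/

open CategoryTheory MonoidalCategory Limits Pretriangulated
open Functor.LaxMonoidal Functor.OplaxMonoidal
open Vale.Agent.P251 Vale.Agent.P251.T Vale.Agent.P251.M Vale.Agent.P251.I Vale.Agent.P251.G
  Vale.Agent.P236Z.Cat Vale.Agent.P236Z.Mod Vale.Agent.P236Z.Top

noncomputable section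

namespace Vale.Agent.P236Z.SS

namespace Alpha

section Mate

variable {D : Type 1} [Category.{0} D] [MonoidalCategory D] {C' C : D} (ev : C' ⊗ C ⟶ 𝟙_ D)

/-- the mate of a map into a tensor product -/
def mt {B Y : D} (f : B ⟶ C ⊗ Y) : C' ⊗ B ⟶ Y :=
  C' ◁ f ≫ (α_ C' C Y).inv ≫ ev ▷ Y ≫ (λ_ Y).hom

theorem mt_pre {A B Y : D} (g : A ⟶ B) (f : B ⟶ C ⊗ Y) : C' ◁ g ≫ mt ev f = mt ev (g ≫ f) := by
  rw [mt, mt, MonoidalCategory.whiskerLeft_comp, Category.assoc]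

theorem mt_post {B Y Z : D} (f : B ⟶ C ⊗ Y) (h : Y ⟶ Z) :
    mt ev f ≫ h = mt ev (f ≫ C ◁ h) := by
  rw [mt, mt, MonoidalCategory.whiskerLeft_comp, Category.assoc, Category.assoc, Category.assoc,
    Category.assoc, associator_inv_naturality_right_assoc, whisker_exchange_assoc,
    leftUnitor_naturality]

theorem mt_pt {Y : D} (p : 𝟙_ D ⟶ Y) : mt ev ((ρ_ C).inv ≫ C ◁ p) = ev ≫ p := by
  rw [← mt_post, mt]
  congr 1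
  monoidal

theorem mt_add [Preadditive D] [MonoidalPreadditive D] {B Y : D} (f g : B ⟶ C ⊗ Y) :
    mt ev (f + g) = mt ev f + mt ev g := by
  rw [mt, mt, mt, MonoidalPreadditive.whiskerLeft_add, Preadditive.add_comp]

instance [IsIso ev] {B Y : D} (f : B ⟶ C ⊗ Y) [IsIso f] : IsIso (mt ev f) := by
  unfold mt
  infer_instance

end Mate

section Two

variable {D D' : Type 1} [Category.{0} D] [Preadditive D] [Category.{0} D'] [Preadditive D']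

/-- two is invertible -/
def Hf (Y : D) : Prop := IsIso ((2 : ℤ) • 𝟙 Y)

theorem Hf.eq_zero {A Y : D} (h : Hf Y) {f : A ⟶ Y} (hf : (2 : ℤ) • f = 0) : f = 0 := by
  have : IsIso ((2 : ℤ) • 𝟙 Y) := h
  rw [← cancel_mono ((2 : ℤ) • 𝟙 Y), Preadditive.comp_zsmul, Category.comp_id, hf, zero_comp]

theorem Hf.map {Y : D} (h : Hf Y) (F : D ⥤ D') [F.Additive] : Hf (F.obj Y) := by
  have : IsIso ((2 : ℤ) • 𝟙 Y) := h
  rw [Hf, ← F.map_id, ← F.map_zsmul]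
  infer_instance

theorem Hf.of_iso {Y Z : D} (h : Hf Y) (e : Z ≅ Y) : Hf Z := by
  have : IsIso ((2 : ℤ) • 𝟙 Y) := h
  have h1 : (2 : ℤ) • 𝟙 Z = e.hom ≫ ((2 : ℤ) • 𝟙 Y) ≫ e.inv := by simp
  rw [Hf, h1]
  infer_instance

theorem Hf.of_map {Y : D} (F : D ⥤ D') [F.Additive] [F.ReflectsIsomorphisms]
    (h : Hf (F.obj Y)) : Hf Y := by
  rw [Hf, ← F.map_id, ← F.map_zsmul] at h
  exact isIso_of_reflects_iso _ F

end Two

variable {W : Tower}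

theorem hf_E (x : Mdl W) : Hf x.P.E := by
  have h2 : IsUnit (2 : x.A.R) := by
    refine IsUnit.of_map x.A.lam _ (IsUnit.of_mul_eq_one 14 ?_)
    rw [map_ofNat]
    linear_combination x.A.h27
  have h : x.IsU₀ ((2 : ℤ) • ((Λ W).zero.inv ≫ (MonObj.one : 𝟙_ W.T₀.C ⟶ x.P.E))) := by
    refine x.isU₀_of_isUnit ?_
    rw [HRing.of, map_zsmul, ← HRing.of, of_one, map_zsmul, map_one]
    simpa using h2
  have h1 : ((2 : ℤ) • ((Λ W).zero.inv ≫ (MonObj.one : 𝟙_ W.T₀.C ⟶ x.P.E))) ▷ x.P.E ≫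
      MonObj.mul = ((Λ W).zero.inv ▷ x.P.E ≫ (λ_ _).hom) ≫ ((2 : ℤ) • 𝟙 x.P.E) := by
    refine (congrArg (· ≫ _) (tensorRight x.P.E).map_zsmul).trans ?_
    rw [Preadditive.zsmul_comp, Preadditive.comp_zsmul, Category.comp_id]
    refine congrArg ((2 : ℤ) • ·) ?_
    simp
  rw [Mdl.IsU₀, h1, isIso_comp_left_iff] at h
  exact h

theorem hf_X (x : Mdl W) : Hf x.X₁ := Hf.of_map (U W) ((hf_E x).of_iso x.Y.e)

@[reassoc] theorem dd_cs (Y : W.T₁.C) :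
    dd 0 (Y⟦(1 : ℤ)⟧) ≫ (cs W Y).hom = (cs W Y).hom ≫ (dd 0 Y)⟦(1 : ℤ)⟧' := by
  rw [dd, dd, if_pos Even.zero, if_pos Even.zero, Step.γ, Eta1.h_shift, Preadditive.sub_comp,
    cs_nat, Functor.map_sub, Preadditive.comp_sub, CategoryTheory.Functor.map_id, Category.id_comp,
    Category.comp_id]

theorem shift_lift {S : W.T₀.C} {Y : W.T₁.C} (w : S⟦(1 : ℤ)⟧ ⟶ (U W).obj Y) :
    ∃ w' : (W.s₁.ind.obj S)⟦(1 : ℤ)⟧ ⟶ Y,
      (W.s₁.un S)⟦(1 : ℤ)⟧' ≫ (cs W _).inv ≫ (U W).map w' = w := by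
  let ε := (shiftFunctor W.T₁.C (1 : ℤ)).objObjPreimageIso Y
  obtain ⟨u, hu⟩ := (shiftFunctor W.T₀.C (1 : ℤ)).map_surjective
    (w ≫ (U W).map ε.inv ≫ (cs W _).hom)
  refine ⟨(shp u)⟦(1 : ℤ)⟧' ≫ ε.hom, ?_⟩
  rw [← cancel_mono ((U W).map ε.inv ≫ (cs W _).hom), ← hu, Category.assoc, Category.assoc,
    ← Functor.map_comp_assoc, Category.assoc, Iso.hom_inv_id, Category.comp_id, cs_nat,
    Iso.inv_hom_id_assoc, ← Functor.map_comp, un_shp]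

/-- the leading term of an extension over the free cell -/
theorem lead (τ : Tow W) {P Q Y : W.T₁.C} {att : τ.A 0 3 ⟶ P} {i : P ⟶ Q}
    {q : Q ⟶ (τ.A 0 3)⟦(1 : ℤ)⟧} (D : H.Dist att i q) (hQ : W.s₁.γ Q = 𝟙 _) (xt : P ⟶ Y)
    (xx : (U W).obj Q ⟶ (U W).obj Y) (hx : (U W).map i ≫ xx = (U W).map xt)
    (c : (U W).obj ((τ.A 0 3)⟦(1 : ℤ)⟧) ⟶ (U W).obj Y) (hc : xx ≫ dd 0 Y = (U W).map q ≫ c)
    (h3 : ∀ f : τ.S 0 3 ⟶ (U W).obj Y, f = 0)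
    (hq : ∀ f : ((U W).obj P)⟦(1 : ℤ)⟧ ⟶ (U W).obj Y, f = 0) :
    ∃ (α : τ.A 1 3 ⟶ Y) (κ : τ.S 1 3 ≅ (U W).obj ((τ.A 0 3)⟦(1 : ℤ)⟧)),
      τ.I 0 1 3 ≫ α = att ≫ xt ∧ τ.gen 1 3 ≫ (U W).map α = κ.hom ≫ c := by
  have T1 := τ.dist 3 (zero_add (1 : ℤ))
  obtain ⟨M, m, pr, D3⟩ := H.exists_cone (shp (τ.gen 0 3) ≫ att)
  obtain ⟨l, p, o1, o2, o3, O⟩ : ∃ (l : τ.A 1 3 ⟶ M) (p : M ⟶ Q), τ.I 0 1 3 ≫ l = att ≫ m ∧
      l ≫ pr = τ.b 3 (zero_add 1) ∧ m ≫ p = i ∧ H.Dist l p (q ≫ (τ.I 0 1 3)⟦(1 : ℤ)⟧') :=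
    let O := Triangulated.someOctahedron rfl T1 D D3
    ⟨O.m₁, O.m₃, O.comm₁, O.comm₂, O.comm₃, O.mem⟩
  obtain ⟨y, hy⟩ := D3.desc₂ xt (by rw [Category.assoc, shp_comp, h3 (_ ≫ _), shp_zero])
  have := τ.gen_iso 0 3 Even.zero
  obtain ⟨s, s1, s2⟩ := (dist_U D).map₃ (dist_U D3) (inv (τ.gen 0 3) ≫ W.s₁.un _) (𝟙 _) (by
    rw [Functor.map_comp, Category.assoc, un_shp_assoc, IsIso.inv_hom_id_assoc, Category.comp_id])
  obtain ⟨χ, hχ⟩ := (dist_U O).lift₂ (s ≫ dd 0 M) (by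
    rw [Category.assoc, dd_nat, dd, if_pos Even.zero, hQ, sub_self, comp_zero, comp_zero])
  obtain ⟨κ, hκ⟩ := τ.gen_b 3 (zero_add (1 : ℤ))
  let K := κ ≪≫ (shiftFunctor _ (1 : ℤ)).mapIso (asIso (τ.gen 0 3)) ≪≫ (cs W _).symm
  have k1 : K.hom = κ.hom ≫ (τ.gen 0 3)⟦(1 : ℤ)⟧' ≫ (cs W _).inv := rfl
  have k2 : K.inv = ((cs W _).hom ≫ (inv (τ.gen 0 3))⟦(1 : ℤ)⟧') ≫ κ.inv := rfl
  have h1 : χ = (U W).map q ≫ K.inv ≫ τ.gen 1 3 := by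
    obtain ⟨v, hv⟩ := (dist_U T1).lift₃ (χ - (U W).map q ≫ K.inv ≫ τ.gen 1 3) (by
      rw [Preadditive.sub_comp, Category.assoc, Category.assoc, hκ, ← o2, Functor.map_comp,
        Category.assoc, reassoc_of% hχ, dd_nat_assoc, dd_cs, k2, sub_eq_zero]
      simp only [Category.assoc] at s2 ⊢
      rw [← reassoc_of% s2, Iso.inv_hom_id_assoc, Functor.map_comp, Functor.map_comp,
        Category.assoc])
    rw [τ.U_I 3 zero_lt_one, comp_zero] at hv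
    exact sub_eq_zero.1 hv.symm
  obtain ⟨w, hw⟩ := (dist_U D).desc₃ (s ≫ (U W).map y - xx) (by
    rw [Preadditive.comp_sub, reassoc_of% s1, ← Functor.map_comp, hy, hx, sub_self])
  obtain ⟨v, hv⟩ := (dist_U D).desc₁ ((cs W _).inv ≫ (c + (cs W _).hom ≫ w ≫ dd 0 Y -
      K.inv ≫ τ.gen 1 3 ≫ (U W).map (l ≫ y))) (by
    rw [Category.assoc, Iso.hom_inv_id_assoc, Preadditive.comp_sub, Preadditive.comp_add, ← hc,
      reassoc_of% hw, Functor.map_comp, ← reassoc_of% h1,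
      reassoc_of% hχ, dd_nat, Preadditive.sub_comp, Category.assoc]
    abel)
  rw [hq v, comp_zero, eq_comm, Preadditive.IsIso.comp_left_eq_zero, sub_eq_zero,
    Iso.eq_inv_comp] at hv
  obtain ⟨w', hw'⟩ := shift_lift ((τ.gen 0 3)⟦(1 : ℤ)⟧' ≫ w)
  refine ⟨l ≫ y - τ.b 3 (zero_add 1) ≫ w', K, ?_, ?_⟩
  · rw [Preadditive.comp_sub, reassoc_of% o1, hy, reassoc_of% T1.zero₂₃, zero_comp, sub_zero]
  · rw [← Category.assoc, ← Iso.eq_comp_inv, Category.assoc] at hκ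
    have h2 : (dd 0 (W.s₁.ind.obj (τ.S 0 3)))⟦(1 : ℤ)⟧' ≫ (cs W _).inv =
        (cs W _).inv ≫ dd 0 _ := by rw [Iso.comp_inv_eq, Category.assoc, dd_cs, Iso.inv_hom_id_assoc]
    rw [Functor.map_sub, Preadditive.comp_sub, ← hv, Functor.map_comp, reassoc_of% hκ,
      Functor.map_comp, Category.assoc, reassoc_of% h2, dd_nat, reassoc_of% hw',
      Preadditive.comp_add, k1]
    simp only [Category.assoc, Iso.inv_hom_id_assoc, add_sub_cancel_right]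

variable (W) in
/-- the trivial action -/
abbrev tv : W.T₀.C ⥤ W.T₁.C := W.L₁.tv.F

variable (W) in
/-- the restriction of the trivial action -/
def tu (A : W.T₀.C) : (U W).obj ((tv W).obj A) ≅ A := W.s₁.tvU.app A

@[reassoc] theorem tu_nat {A B : W.T₀.C} (f : A ⟶ B) :
    (U W).map ((tv W).map f) ≫ (tu W B).hom = (tu W A).hom ≫ f := W.s₁.tvU.hom.naturality f

@[reassoc] theorem tu_one : (tu W (𝟙_ _)).hom ≫ ε (U W) = (U W).map (η (tv W)) := by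
  have h : (ε (U W) ≫ (U W).map (ε (tv W))) ≫ (tu W (𝟙_ _)).hom = 𝟙 _ :=
    NatTrans.IsMonoidal.unit (τ := W.s₁.tvU.hom)
  rw [← cancel_epi ((U W).map (ε (tv W))), ← cancel_epi (ε (U W)), reassoc_of% h,
    ← Functor.map_comp, Functor.Monoidal.ε_η, CategoryTheory.Functor.map_id, Category.comp_id]

variable (W) in
/-- the trivial action commutes with the suspension -/
def ct (A : W.T₀.C) : (tv W).obj (A⟦(1 : ℤ)⟧) ≅ ((tv W).obj A)⟦(1 : ℤ)⟧ :=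
  ((tv W).commShiftIso (1 : ℤ)).app A

@[reassoc] theorem ct_nat {A B : W.T₀.C} (f : A ⟶ B) :
    (tv W).map (f⟦(1 : ℤ)⟧') ≫ (ct W B).hom = (ct W A).hom ≫ ((tv W).map f)⟦(1 : ℤ)⟧' :=
  ((tv W).commShiftIso (1 : ℤ)).hom.naturality f

theorem dist_tv {X Y Z : W.T₀.C} {f : X ⟶ Y} {g : Y ⟶ Z} {h : Z ⟶ X⟦(1 : ℤ)⟧}
    (D : H.Dist f g h) : H.Dist ((tv W).map f) ((tv W).map g) ((tv W).map h ≫ (ct W X).hom) :=
  (tv W).map_distinguished _ D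

theorem tv_sph (τ : Tow W) {A : W.T₀.C} (h : Sph A 4) :
    Nonempty ((tv W).obj A ≅ (τ.A 0 3)⟦(1 : ℤ)⟧) :=
  ⟨(tv W).mapIso (h.iso (Sph.shift (d := 3) ⟨Iso.refl _⟩ 1)).some ≪≫ ct W _ ≪≫
    (shiftFunctor _ (1 : ℤ)).mapIso (((tv W).commShiftIso (3 : ℤ)).app _ ≪≫
      (shiftFunctor _ (3 : ℤ)).mapIso (Functor.Monoidal.εIso (tv W)).symm ≪≫ (τ.ζ 3).some.symm)⟩

/-- the class of a three cell complex -/
theorem three (x : Mdl W) (τ : Tow W) {R P Q S₂ S₄ : W.T₀.C} {i₁ : R ⟶ P} {q₂ : P ⟶ S₂}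
    {d₂ : S₂ ⟶ R⟦(1 : ℤ)⟧} {i₂ : P ⟶ Q} {q₃ : Q ⟶ S₄} {d₃ : S₄ ⟶ P⟦(1 : ℤ)⟧}
    (D₂ : H.Dist i₁ q₂ d₂) (D₃ : H.Dist i₂ q₃ d₃) (t₂ : (2 : ℤ) • d₂ = 0)
    (t₃ : (2 : ℤ) • (d₃ ≫ q₂⟦(1 : ℤ)⟧') = 0) (ev : R ⟶ 𝟙_ _) (h₀ : Sph R 0) (h₂ : Sph S₂ 2)
    (h₄ : Sph S₄ 4) (y : Q ⟶ x.P.E) (hy : i₁ ≫ i₂ ≫ y = ev ≫ MonObj.one) (c : S₄ ⟶ x.P.E)
    (hc : y ≫ x.P.ρ ≫ x.P.ρ ≫ x.P.ρ = y + q₃ ≫ c) {Z : W.T₁.C} (hZ : Hf Z) (k : x.X₁ ⟶ Z)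
    (ψ : (tv W).obj Q ⟶ Z)
    (hψ : (tv W).map (i₁ ≫ i₂) ≫ ψ = (tv W).map ev ≫ η (tv W) ≫ x.one₁ ≫ k) :
    ∃ (α : τ.A 1 3 ⟶ x.X₁) (κ : τ.S 1 3 ≅ S₄),
      τ.gen 1 3 ≫ (U W).map α ≫ x.Y.e.hom = κ.hom ≫ c ∧ τ.I 0 1 3 ≫ α ≫ k = 0 := by
  obtain ⟨b, hb⟩ := (dist_tv D₂).desc₁ (((tv W).map ev ≫ η (tv W) ≫ x.one₁)⟦(1 : ℤ)⟧')
    (((hf_X x).map (shiftFunctor _ (1 : ℤ))).eq_zero (by
      rw [← Preadditive.zsmul_comp, ← Preadditive.zsmul_comp, ← Functor.map_zsmul, t₂,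
        Functor.map_zero, zero_comp, zero_comp]))
  obtain ⟨xt, rfl⟩ := (shiftFunctor _ (1 : ℤ)).map_surjective b
  rw [← Functor.map_comp] at hb
  replace hb := (shiftFunctor _ (1 : ℤ)).map_injective hb
  obtain ⟨ζ⟩ := tv_sph τ h₄
  obtain ⟨att, ha⟩ := (shiftFunctor _ (1 : ℤ)).map_surjective
    (-(ζ.inv ≫ (tv W).map d₃ ≫ (ct W P).hom))
  have D : H.Dist att ((tv W).map i₂) ((tv W).map q₃ ≫ ζ.hom) := by
    have D' : H.Dist ((tv W).map i₂) ((tv W).map q₃ ≫ ζ.hom) (-att⟦(1 : ℤ)⟧') :=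
      (dist_tv D₃).of_iso₃ ζ.inv (by simp) (by rw [ha, neg_neg])
    exact (rotate_distinguished_triangle _).2 D'
  have e1 : ε (U W) ≫ (U W).map x.one₁ ≫ x.Y.e.hom = MonObj.one := x.Y.e_one
  obtain ⟨v, hv⟩ := D₂.desc₂ (i₂ ≫ y - (tu W P).inv ≫ (U W).map xt ≫ x.Y.e.hom) (by
    rw [Preadditive.comp_sub, hy, sub_eq_zero, ← cancel_epi (tu W R).hom, ← tu_nat_assoc i₁,
      Iso.hom_inv_id_assoc, ← Functor.map_comp_assoc, hb, Functor.map_comp, Functor.map_comp,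
      ← tu_nat_assoc, ← tu_one, ← e1]
    simp only [Category.assoc])
  have hv0 : v = 0 := by
    rw [← cancel_epi ((sph_S 1).iso h₂).some.hom, comp_zero]
    exact x.A.zero 1 odd_one _
  rw [hv0, comp_zero, eq_comm, sub_eq_zero, Iso.eq_inv_comp] at hv
  obtain ⟨α, κ, h1, h2⟩ := lead τ D ((congrArg (U W).map (W.L₁.tv_h Q)).trans ((U W).map_id _))
    xt ((tu W Q).hom ≫ y ≫ x.Y.e.inv)
    (by rw [tu_nat_assoc, reassoc_of% hv, Iso.hom_inv_id, Category.comp_id])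
    ((U W).map ζ.inv ≫ (tu W S₄).hom ≫ c ≫ x.Y.e.inv)
    (by
      rw [← Functor.map_comp_assoc, Category.assoc _ ζ.hom, ζ.hom_inv_id, Category.comp_id,
        tu_nat_assoc,
        ← cancel_mono x.Y.e.hom, dd, if_pos Even.zero]
      simp only [Category.assoc, Preadditive.sub_comp, Preadditive.comp_sub, γ_e,
        Iso.inv_hom_id_assoc, Iso.inv_hom_id, Category.comp_id, hc,
        Preadditive.comp_add, add_sub_cancel_left])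
    (odd_zero x (τ.sph 0 3) (by decide))
    (fun f => by
      obtain ⟨u, hu⟩ := D₂.rot.rot.desc₃ ((tu W P).inv⟦(1 : ℤ)⟧' ≫ f)
        (odd_zero x (h₀.shift 1) (by decide) _)
      rw [odd_zero x (h₂.shift 1) (by decide) u, comp_zero, eq_comm] at hu
      exact (Preadditive.IsIso.comp_left_eq_zero _ _).1 hu)
  refine ⟨α, κ ≪≫ (U W).mapIso ζ.symm ≪≫ tu W S₄, ?_, ?_⟩
  · rw [reassoc_of% h2]
    simp
  · obtain ⟨u, hu⟩ := (dist_tv D₂).desc₂ ((tv W).map i₂ ≫ ψ - xt ≫ k) (by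
      rw [Preadditive.comp_sub, ← Functor.map_comp_assoc, hψ, reassoc_of% hb, sub_self])
    have h3 : (2 : ℤ) • (att ≫ (tv W).map q₂) = 0 := (shiftFunctor _ (1 : ℤ)).map_injective (by
      rw [Functor.map_zsmul, Functor.map_comp, ha, Preadditive.neg_comp, Category.assoc,
        Category.assoc, ← ct_nat, ← Functor.map_comp_assoc, smul_neg, ← Preadditive.comp_zsmul,
        ← Preadditive.zsmul_comp, ← Functor.map_zsmul, t₃]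
      simp)
    have h4 := hZ.eq_zero (f := att ≫ (tv W).map q₂ ≫ u) (by
      rw [← Category.assoc, ← Preadditive.zsmul_comp, h3, zero_comp])
    rw [hu, Preadditive.comp_sub, reassoc_of% D.zero₁₂, zero_comp, zero_sub, neg_eq_zero] at h4
    rw [reassoc_of% h1, h4]

theorem dist_ten (C : W.T₀.C) {X Y Z : W.T₀.C} {f : X ⟶ Y} {g : Y ⟶ Z} {h : Z ⟶ X⟦(1 : ℤ)⟧}
    (D : H.Dist f g h) : H.Dist (C ◁ f) (C ◁ g) (C ◁ h ≫ (rS C X).hom) :=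
  S.dist_whiskerLeft C D

theorem rS_nat (C : W.T₀.C) {X Y : W.T₀.C} (f : X ⟶ Y) :
    C ◁ f⟦(1 : ℤ)⟧' ≫ (rS C Y).hom = (rS C X).hom ≫ (C ◁ f)⟦(1 : ℤ)⟧' :=
  ((tensorLeft C).commShiftIso (1 : ℤ)).hom.naturality f

theorem two_ten (C : W.T₀.C) {X Y Z : W.T₀.C} {f : X ⟶ Y} (h : (2 : ℤ) • f = 0)
    (g : C ⊗ Y ⟶ Z) : (2 : ℤ) • (C ◁ f ≫ g) = 0 := by
  have h1 : (2 : ℤ) • (C ◁ f) = C ◁ ((2 : ℤ) • f) := (tensorLeft C).map_zsmul.symm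
  rw [← Preadditive.zsmul_comp, h1, h, MonoidalPreadditive.whiskerLeft_zero, zero_comp]

end Alpha

open Alpha Q in
theorem alpha_of (h1 : CPG) (h2 : XCP) (W : Tower) : ALPHA W := by
  intro G x τ
  obtain ⟨c⟩ := h1 W
  obtain ⟨y, k, hy, hg⟩ := h2 W x c
  obtain ⟨t, ht, hk⟩ := hg (x.P.ρ ≫ x.P.ρ ≫ x.P.ρ)
  have s1 : Sph (W.F.S.obj CCF) 2 :=
    (Sph.tensor (d := 1) (d' := 1) ⟨Iso.refl _⟩ ⟨Iso.refl _⟩).of_iso x.e
  have s2 : Sph (W.F.S.obj (CCF ⊗ CCF)) 4 :=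
    (s1.tensor s1).of_iso (Functor.Monoidal.μIso W.F.S _ _).symm
  have s3 : Sph (W.F.S.obj (CCF ⊗ CCF ⊗ CCF)) 6 :=
    (s1.tensor s2).of_iso (Functor.Monoidal.μIso W.F.S _ _).symm
  have s0 : Sph ((𝟙_ W.T₀.C)⟦(-2 : ℤ)⟧) (-2) := ⟨Iso.refl _⟩
  obtain ⟨ev⟩ := Sph.iso (s0.tensor s1) sph_unit
  obtain ⟨ω, hω⟩ := G.p1
  have e0 : Psg.Ex (W.F.S.map (i1 ≫ i2)) (MonObj.one : 𝟙_ W.T₀.C ⟶ x.P.E) := ⟨y, hy⟩
  obtain ⟨ψ, hψ⟩ := (e0.step W.s₁.N (G.d1.1 (i1 ≫ i2)) (r := Psg.tp W.s₁.ar W.s₁.ar) hω).dv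
    ((Psg.dv_two _).tp (b' := x.one₁) ⟨x.nm₁, (Category.assoc _ _ _).trans (PsiAux.N_one x)⟩)
  rw [Psg.tp_eq] at hψ
  obtain ⟨α, κ, a1, a2⟩ := three x τ (dist_ten _ c.D2) (dist_ten _ c.D3) (two_ten _ c.two2 _)
    (by rw [Category.assoc, ← rS_nat, ← MonoidalCategory.whiskerLeft_comp_assoc]
        exact two_ten _ c.two3 _)
    ev.hom (s0.tensor s1) (s0.tensor s2) (s0.tensor s3) (mt ev.hom y)
    (by rw [mt_pre, mt_pre, ← Functor.map_comp_assoc, hy, mt_pt])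
    (mt ev.hom (δ W.F.S _ _) ≫ t)
    (by rw [mt_post, ht, mt_add, mt_post, mt_pre])
    ((hf_X x).map (tensorLeft (Pw W.s₁.Lr 2))) (act W.s₁.ar 2 _)
    (δ (tv W) _ _ ≫ mt (μ (tv W) _ _ ≫ (tv W).map ev.hom ≫ η (tv W)) ψ)
    (by rw [← MonoidalCategory.whiskerLeft_comp, ← δ_natural_right_assoc, mt_pre,
          ← Functor.map_comp, hψ, mt_pt]
        simp only [Category.assoc, Functor.Monoidal.δ_μ_assoc]
        rfl)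
  obtain ⟨e, he, h3⟩ := (sph_S 2).sign
    ((τ.φ 1 3 2 (by norm_num)).hom ≫ κ.hom ≫ mt ev.hom (δ W.F.S _ _)) k.hom
  refine ⟨α, e, he, ?_, a2⟩
  rw [Tow.jj, τ.val_eq x (n := 2) (by norm_num), Category.assoc, a1]
  rw [reassoc_of% h3, Preadditive.zsmul_comp]
  exact ((DirectSum.of ((Λ W).Gr x.P.E) 2).map_zsmul _ _).trans (congrArg (e • ·) hk)

end Vale.Agent.P236Z.SS
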