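import Vale.Agent.P236Z.Nb.Nm1
import Vale.Agent.P236Z.Cat.Add

/-!
# P236, block NB: Euler classes in the tower, norms, the norm bound, nilpotence
-/

open CategoryTheory MonoidalCategory Limits Pretriangulated
open Functor.LaxMonoidal Functor.OplaxMonoidal
open Vale.Agent.P251 Vale.Agent.P251.T Vale.Agent.P251.M Vale.Agent.P251.I Vale.Agent.P251.G
  Vale.Agent.P251.S Vale.Agent.P236Z.Cat Vale.Agent.P236Z.Mod Vale.Agent.P236Z.Top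
open scoped CategoryTheory.Obj

noncomputable section

namespace Vale.Agent.P236Z.SS

variable {W : Tower}

theorem Tow.isInv_Lr (τ : Tow W) : IsInv W.s₁.Lr := by
  obtain ⟨ξ, -⟩ := τ.ξ (m := 0) (m' := 2) (-2) rfl
  obtain ⟨e⟩ := τ.sph 2 (-2)
  have := τ.gen_iso 2 (-2) even_two
  obtain ⟨X', ⟨j⟩⟩ := W.s₁.exists_inv W.s₁.Lr ((U W).obj (τ.A 0 (-2)))
    (Functor.Monoidal.μIso _ _ _ ≪≫ (U W).mapIso ξ.symm ≪≫ (asIso (τ.gen 2 (-2))).symm ≪≫ e ≪≫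
      (shiftFunctorZero' _ (2 + -2) (by norm_num)).app _)
  exact IsInv.of_inverse j

theorem Tow.exists_ξ (τ : Tow W) (s t : ℤ) : ∀ (M : ℕ) (s' : ℤ), s + 2 * M = s' →
    ∃ ξ : τ.A s' t ≅ Pw W.s₁.Lr M ⊗ τ.A s t, τ.I s s' t ≫ ξ.hom = act W.s₁.ar M _
  | 0, s', h => by
    obtain rfl : s = s' := by simpa using h
    exact ⟨(λ_ _).symm, by rw [τ.I_self, Category.id_comp, act_zero]; rfl⟩
  | M + 1, s', h => by
    obtain ⟨ξ, hξ⟩ := τ.exists_ξ s t M _ rfl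
    obtain ⟨ξ', hξ'⟩ := τ.ξ (m := s + 2 * M) (m' := s') t (by push_cast at h; omega)
    refine ⟨ξ' ≪≫ whiskerLeftIso _ ξ ≪≫ (α_ W.s₁.Lr (Pw W.s₁.Lr M) _).symm, ?_⟩
    refine Eq.trans (b := τ.I s s' t ≫ ξ'.hom ≫ W.s₁.Lr ◁ ξ.hom ≫
      (α_ W.s₁.Lr (Pw W.s₁.Lr M) _).inv) rfl (Eq.trans ?_ (act_succ _ _ _).symm)
    rw [← τ.I_I t (m' := s + 2 * M) (by omega) (by push_cast at h; omega), ← hξ]
    simp only [Category.assoc]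
    rw [reassoc_of% hξ', ← whisker_exchange_assoc, leftUnitor_inv_naturality_assoc ξ.hom]

variable (W) in
theorem actT : ACT W := by
  intro τ M s s' t h
  obtain ⟨ξ, hξ⟩ := τ.exists_ξ s t M s' h
  refine ⟨ξ, hξ, fun Y a => ?_⟩
  have := τ.isInv_Lr
  let e : Pw W.s₁.Lr M ⊗ (tensorLeft (Pw W.s₁.Lr M)).objPreimage Y ≅ Y :=
    (tensorLeft (Pw W.s₁.Lr M)).objObjPreimageIso Y
  obtain ⟨a', ha'⟩ := whiskerLeft_surj (Pw W.s₁.Lr M) (ξ.inv ≫ a ≫ e.inv)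
  have h1 : a = ξ.hom ≫ Pw W.s₁.Lr M ◁ a' ≫ e.hom := by rw [ha']; simp
  rw [h1, reassoc_of% hξ, ← act_nat_assoc, Category.assoc, Category.assoc, act_nat _ _ e.hom,
    Preadditive.IsIso.comp_left_eq_zero ξ.hom, ← Category.assoc, ← Category.assoc (_ ◁ a'),
    Preadditive.IsIso.comp_right_eq_zero _ e.hom,
    Preadditive.IsIso.comp_right_eq_zero _ (_ ◁ e.hom), act_cancel]

variable (W) in
theorem nil : NIL W := by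
  intro x n u M hu h
  have h1 : IsIso ((W.s₁.N.map u ≫ x.nm₁) ▷ x.X₁ ≫ x.mul₁) :=
    isU₁_nm₁ x (x.isU₀_of_isUnit (hu.map _))
  have h2 := act_comp_zero W.s₁.ar M (act_tensor_zero W.s₁.ar M
    (f := W.s₁.N.map u ≫ x.nm₁) (by rw [Category.assoc, h]) (𝟙 x.X₁)) x.mul₁
  rw [tensorHom_id] at h2
  exact (Preadditive.IsIso.comp_left_eq_zero _ _).1 h2

section Bnd

variable (x : Mdl W) {Z C B : W.T₀.C}

/-- the norm of a class in twisted cohomology -/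
def nmC (y : Z ⟶ C ⊗ x.P.E) : W.s₁.N.obj Z ⟶ W.s₁.N.obj C ⊗ x.X₁ :=
  W.s₁.N.map y ≫ δ W.s₁.N _ _ ≫ _ ◁ x.nm₁

theorem nmC_h (hC : Triv W.L₁.t (W.s₁.N.obj C)) (y : Z ⟶ C ⊗ x.P.E) :
    nmC x (y ≫ C ◁ (x.P.ρ ≫ x.P.ρ ≫ x.P.ρ)) = (W.L₁.t.h _).hom ≫ nmC x y := by
  rw [← W.L₁.t.nat, hC.ten_right, nmC, nmC, Functor.map_comp, Category.assoc,
    ← δ_natural_right_assoc, ← MonoidalCategory.whiskerLeft_comp, nm₁_h]
  simp only [Category.assoc, MonoidalCategory.whiskerLeft_comp]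

theorem nmC_pair (β : B ⟶ Z ⊗ x.P.E) (y : Z ⟶ C ⊗ x.P.E) :
    nmC x (β ≫ y ▷ x.P.E ≫ (α_ _ _ _).hom ≫ _ ◁ MonObj.mul) =
      W.s₁.N.map β ≫ δ W.s₁.N _ _ ≫ (nmC x y ⊗ₘ x.nm₁) ≫ (α_ _ _ _).hom ≫ _ ◁ x.mul₁ := by
  have h1 : (nmC x y ⊗ₘ x.nm₁) ≫ (α_ _ _ _).hom =
      W.s₁.N.map y ▷ _ ≫ δ W.s₁.N C x.P.E ▷ _ ≫ (α_ _ _ _).hom ≫ _ ◁ (x.nm₁ ⊗ₘ x.nm₁) := by
    rw [nmC, ← id_tensorHom (W.s₁.N.obj C) (x.nm₁ ⊗ₘ x.nm₁), ← associator_naturality,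
      ← comp_whiskerRight_assoc, ← tensorHom_id, tensorHom_comp_tensorHom_assoc, id_tensorHom,
      Category.id_comp, Category.assoc]
  rw [reassoc_of% h1, δ_natural_left_assoc, Functor.OplaxMonoidal.associativity_assoc,
    ← MonoidalCategory.whiskerLeft_comp, ← MonoidalCategory.whiskerLeft_comp, nm₁_mul,
    Functor.Monoidal.δ_μ_assoc, nmC, MonoidalCategory.whiskerLeft_comp, δ_natural_right_assoc]
  simp only [Functor.map_comp, Category.assoc]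

end Bnd

variable (W) in
theorem bnd : BND W := by
  intro G hK hD x k n hk hn
  obtain ⟨z, β, u, hu, h0, h1⟩ := hD x k n hk hn
  refine ⟨u, hu, ?_⟩
  have := isInv_C x
  have := isInv_map W.s₁.N (W.F.S.obj CCF)
  have e1 := hK k _ (nmC x (z ≫ _ ◁ (x.P.ρ ≫ x.P.ρ ≫ x.P.ρ)) - nmC x z) (by
    have h := W.L₁.t.nat (W.s₁.dg (CPF k))
    rw [W.L₁.tv_h, Category.id_comp] at h
    rw [Preadditive.comp_sub, nmC_h x (triv_NC G), sub_eq_zero]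
    exact (Category.assoc _ _ _).symm.trans (congrArg (· ≫ nmC x z) h))
  have e2 := act_comp_zero W.s₁.ar _ (act_tensor_zero W.s₁.ar _ e1 x.nm₁)
    ((α_ _ _ _).hom ≫ _ ◁ x.mul₁)
  have p0 := nmC_pair x β z
  have p1 := nmC_pair x β (z ≫ _ ◁ (x.P.ρ ≫ x.P.ρ ≫ x.P.ρ))
  rw [h0, nmC, W.s₁.N_zero, zero_comp] at p0
  rw [h1, nmC, ← δ_natural_right_assoc, ← MonoidalCategory.whiskerLeft_comp] at p1
  have e3 : ∀ a b : W.s₁.N.obj (W.F.S.obj (CPF k)) ⟶ W.s₁.N.obj (W.F.S.obj CCF) ⊗ x.X₁,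
      (a - b) ⊗ₘ x.nm₁ = (a ⊗ₘ x.nm₁) - (b ⊗ₘ x.nm₁) := fun a b => by
    rw [eq_sub_iff_add_eq, ← MonoidalPreadditive.add_tensor, sub_add_cancel]
  have e4 := congrArg (W.s₁.N.map β ≫ δ W.s₁.N _ _ ≫ ·) e2
  simp only [e3, Preadditive.sub_comp, Preadditive.comp_sub, comp_zero, Category.assoc] at e4
  rw [← reassoc_of% p0, ← reassoc_of% p1, zero_comp, sub_zero,
    Preadditive.IsIso.comp_left_eq_zero, act_cancel, Category.assoc] at e4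
  exact e4

/-- the double suspension -/
def dbl {T : TTC} (A : T.C) : (A⟦(1 : ℤ)⟧)⟦(1 : ℤ)⟧ ≅ (stdEven T.C).L ⊗ A :=
  (TensorTriangulated.e _).symm ≪≫ whiskerRightIso (TensorTriangulated.e A).symm _ ≪≫
    α_ _ _ _ ≪≫ β_ _ _

/-- the trivial action on the sphere of dimension two -/
def tvL : W.L₁.tv.F.obj (Λ W).L ≅ (stdEven W.T₁.C).L :=
  (Functor.Monoidal.μIso W.L₁.tv.F _ _).symm ≪≫
    (((W.L₁.tv.F.commShiftIso (1 : ℤ)).app _ ≪≫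
      (shiftFunctor _ (1 : ℤ)).mapIso (Functor.Monoidal.εIso W.L₁.tv.F).symm) ⊗ᵢ
    ((W.L₁.tv.F.commShiftIso (1 : ℤ)).app _ ≪≫
      (shiftFunctor _ (1 : ℤ)).mapIso (Functor.Monoidal.εIso W.L₁.tv.F).symm))

theorem Tow.step (τ : Tow W) {s s' t t' : ℤ} (hs : s + 4 = s') (ht : t + 2 = t') :
    Nonempty (τ.A s' t' ≅ ((stdEven W.T₁.C).L ⊗ W.s₁.Lr ⊗ W.s₁.Lr) ⊗ τ.A s t) := by
  obtain ⟨ξ, -⟩ := τ.ξ (m := s) (m' := s + 2) t rfl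
  obtain ⟨ξ', -⟩ := τ.ξ (m := s + 2) (m' := s') t (by omega)
  exact ⟨τ.τ s' (t := t + 1) (by omega) ≪≫ (shiftFunctor _ (1 : ℤ)).mapIso (τ.τ s' rfl) ≪≫
    dbl _ ≪≫ whiskerLeftIso _ (ξ' ≪≫ whiskerLeftIso _ ξ ≪≫ (α_ _ _ _).symm) ≪≫ (α_ _ _ _).symm⟩

theorem Tow.iso_N (G : W.Geo) (x : Mdl W) (τ : Tow W) (k : ℤ) :
    Nonempty (τ.A (4 * k) (2 * k) ≅ W.s₁.N.obj ((Λ W).S k)) := by
  obtain ⟨ω, -⟩ := G.p1
  have q : (stdEven W.T₁.C).L ⊗ W.s₁.Lr ⊗ W.s₁.Lr ≅ W.s₁.N.obj ((Λ W).S 1) :=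
    (whiskerRightIso (W.L₁.tv.F.mapIso x.e ≪≫ tvL) _).symm ≪≫ ω.symm ≪≫
      W.s₁.N.mapIso (x.e ≪≫ (Λ W).oneIso.symm)
  have := isInv_map W.s₁.N ((Λ W).S 1)
  have e : ∀ m n : ℤ, 1 + m = n →
      (W.s₁.N.obj ((Λ W).S 1) ⊗ W.s₁.N.obj ((Λ W).S m) ≅ W.s₁.N.obj ((Λ W).S n)) :=
    fun m n h => Functor.Monoidal.μIso _ _ _ ≪≫ W.s₁.N.mapIso ((Λ W).mu 1 m n h)
  induction k using Int.induction_on with
  | zero =>
    obtain ⟨ζ⟩ := τ.ζ 0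
    exact ⟨ζ ≪≫ (shiftFunctorZero _ ℤ).app _ ≪≫ Functor.Monoidal.εIso W.s₁.N⟩
  | succ i ih =>
    obtain ⟨a⟩ := ih
    obtain ⟨b⟩ := τ.step (s := 4 * i) (s' := 4 * (i + 1)) (t := 2 * i) (t' := 2 * (i + 1))
      (by ring) (by ring)
    exact ⟨b ≪≫ (q ⊗ᵢ a) ≪≫ e _ _ (by ring)⟩
  | pred i ih =>
    obtain ⟨a⟩ := ih
    obtain ⟨b⟩ := τ.step (s := 4 * (-i - 1)) (s' := 4 * -i) (t := 2 * (-i - 1)) (t' := 2 * -i)
      (by ring) (by ring)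
    exact ⟨cancelIso (W.s₁.N.obj ((Λ W).S 1))
      (whiskerRightIso q.symm _ ≪≫ b.symm ≪≫ a ≪≫ (e _ _ (by ring)).symm)⟩

theorem hA_of (x : Mdl W) (n : ℤ) (u : (Λ W).S n ⟶ x.P.E) :
    hA x.P (HRing.of (Λ W) x.P.E n u) = HRing.of (Λ W) x.P.E n (u ≫ x.P.ρ ≫ x.P.ρ ≫ x.P.ρ) :=
  HRing.map_of (x.P.ρ ≫ x.P.ρ ≫ x.P.ρ) n u

variable (W) in
theorem nrm : NRM W := by
  rintro G x τ k s t rfl rfl u
  obtain ⟨χ⟩ := τ.iso_N G x k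
  refine ⟨_, ⟨χ, rfl⟩, ?_⟩
  have hev : Even (4 * k + 2 * k) := ⟨3 * k, by ring⟩
  have := τ.gen_iso (4 * k) (2 * k) ⟨2 * k, by ring⟩
  have hn : k + (k + k) = (4 * k + 2 * k) / 2 := by omega
  obtain ⟨e, he, h⟩ := aut_sign _ ((τ.φ _ _ _ (Int.two_mul_ediv_two_of_even hev).symm).hom ≫
    τ.gen _ _ ≫ (U W).map χ.hom ≫ (W.s₁.νIso _).hom ≫ _ ◁ ((Λ W).mu k k _ rfl).hom ≫
      ((Λ W).mu k (k + k) _ hn).hom)
  refine ⟨e, he, ?_⟩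
  rw [Tow.jj, Tow.val, dif_pos hev, nm, hA_of, hA_of, mul_assoc, of_mul_of rfl,
    of_mul_of hn, ← map_zsmul]
  congr 1
  rw [Functor.map_comp, Category.assoc, Category.assoc, U_nm₁,
    ← Category.id_comp (EvenSpheres.gmul _ _ _), ← Preadditive.zsmul_comp, ← h]
  simp only [EvenSpheres.gmul, EvenSpheres.ext, Category.assoc, Iso.hom_inv_id_assoc]
  rw [← id_tensorHom, tensorHom_comp_tensorHom_assoc, Category.id_comp, Iso.hom_inv_id_assoc]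

end Vale.Agent.P236Z.SS
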