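import Vale.Agent.P251.G.TPow
import Vale.Agent.P251.G.CofibEx

/-!
# P236, block NB: statements about spaces

`CPm m` is the projective space of `ℂ^(m+1)`.

* `SIG m` : an equivariant map from the third power of `CPm m` to `ℂ^(3m+1)` whose zeros are on
  the diagonal.
* `HEP m` : the diagonal of the third power is a neighbourhood deformation retract.
-/

namespace Vale.Agent.P236Z.Nb

open Vale.Agent.P251.G

/-- the projective space of `ℂ^(m+1)` -/
abbrev CPm (m : ℕ) : Type := Gr 1 (Fin (m + 1))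

/-- An equivariant map to `ℂ^(3m+1)` which vanishes only on the diagonal. -/
def SIG (m : ℕ) : Prop := ∀ z : ℂ, z ^ 2 + z + 1 = 0 →
  ∃ σ : CPm m × CPm m × CPm m → Fin (3 * m + 1) → ℂ, Continuous σ ∧
    (∀ a b c, σ (b, c, a) = z • σ (a, b, c)) ∧ ∀ a b c, σ (a, b, c) = 0 → a = b ∧ b = c

/-- The diagonal is a neighbourhood deformation retract. -/
def HEP (m : ℕ) : Prop :=
  LC.PNDR (LC.of (CPm m × CPm m × CPm m)) {p | p.1 = p.2.1 ∧ p.2.1 = p.2.2}

end Vale.Agent.P236Z.Nb
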