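import Vale.Agent.P236Z.SS.Tow
import Vale.Agent.P236Z.Mod.Gen
import Vale.Agent.P251.M.BGlueD

/-!
# P236, block NB: the homology class dual to the top power of the coordinate
-/

open CategoryTheory MonoidalCategory Limits Pretriangulated MonObj
open Vale.Agent.P251 Vale.Agent.P251.T Vale.Agent.P251.M Vale.Agent.P251.I Vale.Agent.P251.G
  Vale.Agent.P251.F Vale.Agent.P251.S Vale.Agent.P236Z.Cat Vale.Agent.P236Z.Mod
  Vale.Agent.P236Z.Top
open Vale.Agent.P251.M.EvenSpheres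

universe v u

set_option linter.unusedSectionVars false

noncomputable section

namespace Vale.Agent.P236Z.SS

section bu

variable {D : Type u} [Category.{v} D] [Preadditive D] [MonoidalCategory D]
    [SymmetricCategory D] [MonoidalPreadditive D] (B : BUData D)

/-- the base point at a finite stage -/
def buPt (N : ℕ) : 𝟙_ D ⟶ (B.g 1).obj (N + 1) :=
  (B.pt0 N).hom ≫ B.a 0 N ≫ (B.p 1).app (N + 1)

theorem buPt_zz (N : ℕ) : buPt B N ≫ (B.zz 1).app (N + 1) = 0 := by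
  have h : (B.p 1).app (N + 1) ≫ (B.z 1).app (N + 1) = 0 := by
    rw [← NatTrans.comp_app, B.p_z, zero_app]
  rw [buPt, BUData.zz_app, Category.assoc, Category.assoc, reassoc_of% h, zero_comp, comp_zero,
    comp_zero]

theorem buPt_aug (N : ℕ) : buPt B N ≫ B.aug (N + 1) = 𝟙 _ := by
  rw [← cancel_mono (B.pt0 (N + 1)).hom, buPt]
  simp only [Category.assoc]
  rw [B.p_aug, B.a_b, B.pt0_map, Category.id_comp]

theorem bu_lift {W : D} (N : ℕ) (y : W ⟶ (B.g 1).obj N ⊗ B.S ((1 : ℕ) : ℤ)) :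
    ∃ x : W ⟶ (B.g 1).obj (N + 1), x ≫ B.aug (N + 1) = 0 ∧ x ≫ (B.zz 1).app (N + 1) =
      y ≫ ((B.g 1).map (homOfLE (Nat.le_succ N)) ▷ B.S ((1 : ℕ) : ℤ)) := by
  obtain ⟨y', hy'⟩ : ∃ y' : W ⟶ (B.th 1).obj N, y' = y ≫ (B.θ 1).inv.app N := ⟨_, rfl⟩
  have h0 : y' ≫ (B.c 1).app N ≫ ((B.b 0).app N ▷ B.R1) = 0 := by
    rw [← B.p_aug, comp_whiskerRight, reassoc_of% (B.c_p 1 N), zero_comp, comp_zero]
  have h1 : (y' ≫ (B.th 1).map (homOfLE (Nat.le_succ N))) ≫ (B.c 1).app (N + 1) = 0 := by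
    rw [Category.assoc, (B.c 1).naturality]
    change y' ≫ (B.c 1).app N ≫ ((B.s 1).map (homOfLE (Nat.le_succ N)) ▷ B.R1) = 0
    rw [← B.b_a 0 N, comp_whiskerRight, reassoc_of% h0, zero_comp]
  obtain ⟨x, hx⟩ := B.ex_th 1 (N + 1) _ h1
  refine ⟨x - x ≫ B.aug (N + 1) ≫ buPt B N, ?_, ?_⟩
  · rw [Preadditive.sub_comp, Category.assoc, Category.assoc, buPt_aug, Category.comp_id, sub_self]
  · rw [Preadditive.sub_comp, Category.assoc, Category.assoc, buPt_zz, comp_zero, comp_zero,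
      sub_zero, BUData.zz_app, reassoc_of% hx, (B.θ 1).hom.naturality, hy', Category.assoc,
      ← NatTrans.comp_app_assoc, Iso.inv_hom_id, NatTrans.id_app, Category.id_comp]
    rfl

/-- the class dual to the top power of the Euler class -/
theorem bu_dual (j : ℕ) : ∃ β : B.S ((j : ℕ) : ℤ) ⟶ (B.g 1).obj (j + 1),
    β ≫ B.xp j (j + 1) = 𝟙 _ ∧ ∀ i < j, β ≫ B.xp i (j + 1) = 0 := by
  induction j with
  | zero =>
    refine ⟨B.e0N.inv ≫ buPt B 0, ?_, fun i hi => absurd hi (Nat.not_lt_zero i)⟩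
    rw [BUData.xp_zero, Category.assoc, reassoc_of% (buPt_aug B 0), Iso.inv_hom_id]
  | succ j ih =>
    obtain ⟨β, h1, h2⟩ := ih
    obtain ⟨x, hx, hx'⟩ := bu_lift B (j + 1)
      ((B.mu _ _ _ (BUData.natCast_add_one j)).inv ≫ β ▷ B.S ((1 : ℕ) : ℤ))
    have key : ∀ i, x ≫ B.xp (i + 1) (j + 1 + 1) = (B.mu _ _ _ (BUData.natCast_add_one j)).inv ≫
        (β ≫ B.xp i (j + 1)) ▷ B.S ((1 : ℕ) : ℤ) ≫
          (B.mu _ _ _ (BUData.natCast_add_one i)).hom := fun i => by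
      rw [BUData.xp_succ, reassoc_of% hx', ← comp_whiskerRight_assoc, ← comp_whiskerRight_assoc,
        Category.assoc, B.xp_map]
    refine ⟨x, ?_, fun i hi => ?_⟩
    · rw [key, h1, id_whiskerRight, Category.id_comp, Iso.inv_hom_id]
    · cases i with
      | zero => rw [BUData.xp_zero, reassoc_of% hx, zero_comp]
      | succ i =>
        rw [key, h2 i (by omega), MonoidalPreadditive.zero_whiskerRight, zero_comp, comp_zero]

end bu

section T0

variable {T : Type u} [Category.{v} T] [Preadditive T] [HasZeroObject T]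
    [HasShift T ℤ] [∀ n : ℤ, (shiftFunctor T n).Additive] [Pretriangulated T] [IsTriangulated T]
    [MonoidalCategory T] [SymmetricCategory T] [TensorTriangulated T] [MonoidalClosed T]
    [HasCoproducts.{0} T] [HasProducts.{0} T] [StableCat T]
  {F : SpaceFunctor T} {e : F.S.obj CCF ≅ (stdEven T).L}
  {K : T} [MonObj K] [IsCommMonObj K]

theorem dual_T (C : ThomSys.Cls (thomSys F (stdEven T) e) K) (j : ℕ) :
    ∃ β : (stdEven T).S ((j : ℕ) : ℤ) ⟶ K ⊗ F.S.obj (grX (j + 1)),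
      β ≫ FM.bind (xpT C j (j + 1)) = FM.unit K _ ∧
        ∀ i < j, β ≫ FM.bind (xpT C i (j + 1)) = 0 := by
  obtain ⟨β, h1, h2⟩ := bu_dual (buDataK C) j
  exact ⟨FM.Hom.hom β, congrArg FM.Hom.hom h1, fun i hi => congrArg FM.Hom.hom (h2 i hi)⟩

variable (M : MUMon F (stdEven T) e) (b : MUBasis M.V)

/-- a change of the type -/
def asM (a : (M.data b).R ⟶ K) : M.R ⟶ K := a

instance (a : (M.data b).R ⟶ K) [h : IsMonHom a] : IsMonHom (asM M b a) := h

variable (a a' : (M.data b).R ⟶ K) [IsMonHom a] [IsMonHom a']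

/-- the coefficients of the strict isomorphism -/
theorem sIso_c (i : ℕ) : (sIso (M.data b) a a').c i =
    coefK e K ((CPSys.Coord.cmp (coordO ((thKHom e (asM M b a)).push M.orient))
      (coordO ((thKHom e (asM M b a')).push M.orient)) (z_one_eq _ _)).c i) := by
  have h1 : ∀ c : LChain 1 (thK e K).A, c.ev (((Cob.univ Laz 1).g 1).c i) = (c.g 1).c i :=
    fun c => (InvSeries.c_map c.ev _ i).symm.trans
      (congrArg (fun c' : LChain 1 (thK e K).A => (c'.g 1).c i) c.univ_map_ev)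
  have h2 : (sIso (M.data b) a a').c i = HRing.map (pair (asM M b a) (asM M b a'))
      (amEv e M.R M.orient 1 (((Cob.univ Laz 1).g 1).c i)) := by
    rw [sIso, InvSeries.c_map, MUData.strictIso, InvSeries.c_map]
    rfl
  have h3 : (thKHom e (pair (asM M b a) (asM M b a'))).push (amO e M.R M.orient (0 : Fin 2)) =
      (thKHom e (asM M b a)).push M.orient := thKHom_push_comp e _ _ _ (v0_pair _ _) _
  have h4 : (thKHom e (pair (asM M b a) (asM M b a'))).push (amO e M.R M.orient (1 : Fin 2)) =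
      (thKHom e (asM M b a')).push M.orient := thKHom_push_comp e _ _ _ (v1_pair _ _) _
  have key : ∀ {o₁ o₂ o₁' o₂' : Q.Orientation (thK e K)}, o₁ = o₁' → o₂ = o₂' →
      (CPSys.Coord.cmp (coordO o₁) (coordO o₂) (z_one_eq _ _)).c i =
        (CPSys.Coord.cmp (coordO o₁') (coordO o₂') (z_one_eq _ _)).c i := by
    rintro o₁ o₂ _ _ rfl rfl
    rfl
  rw [h2, amEv_apply, ← coefK_mapA, mapA_oEv, oEv, h1]
  exact congrArg (coefK e K) (key h3 h4)

/-- the Euler class of the second orientation in terms of the powers of the first one -/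
theorem eul_exp : ∃ g : ∀ i : ℕ, (stdEven T).S ((i : ℕ) : ℤ) ⟶ K,
    (∀ i, HRing.of (stdEven T) K ((i : ℕ) : ℤ) (g i) = (sIso (M.data b) a a').c i) ∧
    ∀ n : ℕ, eulT (M.cls.push (asM M b a')) (n + 1) = ∑ i : Fin n,
      xpT (M.cls.push (asM M b a)) ((i : ℕ) + 1) (n + 1) ≫
        FM.bind (((stdEven T).mu _ _ _ (BUData.natCast_add_one (i : ℕ))).inv ≫
          (g (i : ℕ) ▷ (stdEven T).S ((1 : ℕ) : ℤ))) := by
  have hg : ∀ i : ℕ, ∃ g : (stdEven T).S ((i : ℕ) : ℤ) ⟶ K,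
      coefK e K ((CPSys.Coord.cmp (coordO ((thKHom e (asM M b a)).push M.orient))
        (coordO ((thKHom e (asM M b a')).push M.orient)) (z_one_eq _ _)).c i) =
        HRing.of (stdEven T) K ((i : ℕ) : ℤ) g := fun i =>
    coefK_deg e (by omega : -((i : ℕ) : ℤ) + ((i : ℕ) : ℤ) = 0) (cmp_c_mem _ _ _ i)
  choose g hg using hg
  refine ⟨g, fun i => ((sIso_c M b a a' i).trans (hg i)).symm, fun n => ?_⟩
  have hz := tU_z_push (asM M b a) M.cls M.orient (n + 1) (M.tU_z_orient _)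
  have hz' := tU_z_push (asM M b a') M.cls M.orient (n + 1) (M.tU_z_orient _)
  have h1 := z_eq_sum_cmp ((thKHom e (asM M b a)).push M.orient) ((thKHom e (asM M b a')).push M.orient)
    (z_one_eq _ _) n
  have h2 := congrArg (tU e K (grX (n + 1))) h1
  rw [map_sum] at h2
  apply cancel_inPS
  refine hz'.symm.trans (h2.trans ?_)
  rw [Preadditive.sum_comp]
  refine Finset.sum_congr rfl fun i _ => ?_
  refine (tU_smul e (grX (n + 1)) _ _).trans ?_
  rw [hg i, HRing.of, sharpTot_of, tU_zpow _ _ (n + 1) hz ((i : ℕ) + 1)]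
  simp only [Category.assoc]
  rw [in_smul_sharp (BUData.natCast_add_one (i : ℕ))]

theorem swap_bind {P L : T} (f : P ⟶ K ⊗ L) :
    (β_ K P).hom ≫ (f ≫ (β_ K L).hom) ▷ K ≫ (α_ _ _ _).hom ≫ L ◁ μ[K] =
      FM.bind f ≫ (β_ K L).hom := by
  rw [FM.bind, ← BraidedCategory.braiding_naturality_right_assoc, Category.assoc, Category.assoc,
    BraidedCategory.braiding_naturality_left, MonoidalCategory.whiskerLeft_comp, Category.assoc]
  congr 1
  rw [BraidedCategory.braiding_tensor_left_hom, BraidedCategory.braiding_tensor_right_hom]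
  simp only [Category.assoc, Iso.inv_hom_id_assoc]
  rw [← MonoidalCategory.whiskerLeft_comp, IsCommMonObj.mul_comm]

theorem pair_exp (m : ℕ) (β : (stdEven T).S ((m + 1 : ℕ) : ℤ) ⟶ K ⊗ F.S.obj (grX (m + 1 + 1)))
    (h1 : β ≫ FM.bind (xpT (M.cls.push (asM M b a)) (m + 1) (m + 1 + 1)) = FM.unit K _)
    (h2 : ∀ i < m + 1, β ≫ FM.bind (xpT (M.cls.push (asM M b a)) i (m + 1 + 1)) = 0) :
    ∃ g : (stdEven T).S ((m : ℕ) : ℤ) ⟶ K,
      HRing.of (stdEven T) K ((m : ℕ) : ℤ) g = (sIso (M.data b) a a').c m ∧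
      β ≫ FM.bind (eulT M.cls (m + 1 + 1) ≫ asM M b a' ▷ (stdEven T).S ((1 : ℕ) : ℤ)) =
        ((stdEven T).mu _ _ _ (BUData.natCast_add_one m)).inv ≫
          (g ▷ (stdEven T).S ((1 : ℕ) : ℤ)) := by
  obtain ⟨g, hg, he⟩ := eul_exp M b a a'
  refine ⟨g m, hg m, ?_⟩
  have h3 : eulT M.cls (m + 1 + 1) ≫ asM M b a' ▷ (stdEven T).S ((1 : ℕ) : ℤ) =
      eulT (M.cls.push (asM M b a')) (m + 1 + 1) := Category.assoc _ _ _
  have h4 := map_sum (AddMonoidHom.mk' (FM.bind (R := K)) FM.bind_add)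
    (fun i : Fin (m + 1) => xpT (M.cls.push (asM M b a)) ((i : ℕ) + 1) (m + 1 + 1) ≫
      FM.bind (((stdEven T).mu _ _ _ (BUData.natCast_add_one (i : ℕ))).inv ≫
        (g (i : ℕ) ▷ (stdEven T).S ((1 : ℕ) : ℤ)))) Finset.univ
  rw [h3, he (m + 1)]
  refine (congrArg (β ≫ ·) h4).trans ?_
  simp only [AddMonoidHom.mk'_apply]
  rw [Preadditive.comp_sum, Fin.sum_univ_castSucc, Finset.sum_eq_zero, zero_add]
  · rw [← FM.bind_bind]
    exact (Category.assoc _ _ _).symm.trans ((congrArg (· ≫ _) h1).trans (FM.unit_bind _))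
  · intro i _
    rw [← FM.bind_bind, ← Category.assoc, h2 _ (by simp), zero_comp]

theorem sIso_self_c (m : ℕ) : (sIso (M.data b) a a).c (m + 1) = 0 := by
  rw [sIso_c, CPSys.Coord.cmp_self, InvSeries.c_one_succ, map_zero]

theorem dual_gen (h : K ⟶ K) [IsMonHom h] (m : ℕ) :
    ∃ (z : F.S.obj (grX (m + 1 + 1 + 1)) ⟶ F.S.obj CCF ⊗ K)
      (β : F.S.obj CCF ⊗ (stdEven T).S ((m + 1 : ℕ) : ℤ) ⟶ F.S.obj (grX (m + 1 + 1 + 1)) ⊗ K)
      (u : (stdEven T).S ((m + 1 : ℕ) : ℤ) ⟶ K),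
      HRing.of (stdEven T) K _ u = (sIso (M.data b) a (a ≫ h)).c (m + 1) ∧
      β ≫ z ▷ K ≫ (α_ _ _ _).hom ≫ _ ◁ μ[K] = 0 ∧
      β ≫ (z ≫ _ ◁ h) ▷ K ≫ (α_ _ _ _).hom ≫ _ ◁ μ[K] = _ ◁ u := by
  obtain ⟨β, h1, h2⟩ := dual_T (M.cls.push (asM M b a)) (m + 1 + 1)
  obtain ⟨g₀, hg₀, e₀⟩ := pair_exp M b a a (m + 1) β h1 h2
  obtain ⟨g, hg, e₁⟩ := pair_exp M b a (a ≫ h) (m + 1) β h1 h2
  have h0 : g₀ = 0 := by
    rw [sIso_self_c] at hg₀
    exact DirectSum.of_injective (β := (stdEven T).Gr K) _ (hg₀.trans (map_zero _).symm)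
  let io : (stdEven T).S ((1 : ℕ) : ℤ) ≅ F.S.obj CCF := (stdEven T).oneIso ≪≫ e.symm
  have key : ∀ (f : M.R ⟶ K) (w : (stdEven T).S ((m + 1 : ℕ) : ℤ) ⟶ K),
      β ≫ FM.bind (eulT M.cls (m + 1 + 1 + 1) ≫ f ▷ (stdEven T).S ((1 : ℕ) : ℤ)) =
        ((stdEven T).mu _ _ _ (BUData.natCast_add_one (m + 1))).inv ≫
          (w ▷ (stdEven T).S ((1 : ℕ) : ℤ)) →
      (io.inv ▷ _ ≫ (β_ _ _).hom ≫ ((stdEven T).mu _ _ _ (BUData.natCast_add_one (m + 1))).hom ≫
        β ≫ (β_ _ _).hom) ≫ (((eulT M.cls (m + 1 + 1 + 1) ≫ f ▷ (stdEven T).S ((1 : ℕ) : ℤ)) ≫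
          (β_ _ _).hom) ≫ io.hom ▷ K) ▷ K ≫ (α_ _ _ _).hom ≫ _ ◁ μ[K] = _ ◁ w := by
    intro f w hw
    generalize eulT M.cls (m + 1 + 1 + 1) ≫ f ▷ (stdEven T).S ((1 : ℕ) : ℤ) = y at hw ⊢
    rw [comp_whiskerRight _ (io.hom ▷ K)]
    simp only [Category.assoc]
    rw [associator_naturality_left_assoc, ← whisker_exchange, reassoc_of% (swap_bind y),
      reassoc_of% hw, Iso.hom_inv_id_assoc, BraidedCategory.braiding_naturality_left_assoc w,
      SymmetricCategory.symmetry_assoc, whisker_exchange, ← comp_whiskerRight_assoc,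
      Iso.inv_hom_id, id_whiskerRight, Category.id_comp]
  refine ⟨((eulT M.cls (m + 1 + 1 + 1) ≫ asM M b a ▷ _) ≫ (β_ _ _).hom) ≫ io.hom ▷ K, _, g, hg,
    (key _ _ e₀).trans (by rw [h0, MonoidalPreadditive.whiskerLeft_zero]), Eq.trans ?_ (key _ _ e₁)⟩
  congr 3
  change _ = ((_ ≫ (asM M b a ≫ h) ▷ _) ≫ _) ≫ _
  simp only [Category.assoc, comp_whiskerRight]
  rw [← whisker_exchange, BraidedCategory.braiding_naturality_left_assoc h]

end T0

/-- **DUAL** -/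
theorem dual (W : Tower) : DUAL W := by
  intro x k n hk hn
  obtain ⟨m, rfl⟩ : ∃ m, k = m + 1 + 1 := ⟨k - 2, by omega⟩
  obtain rfl : n = ((m + 1 : ℕ) : ℤ) := by omega
  exact dual_gen x.M x.b x.P.uE (x.P.ρ ≫ x.P.ρ ≫ x.P.ρ) m

end Vale.Agent.P236Z.SS
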