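import Vale.Agent.P236Z.Nb.Om
import Vale.Agent.P236Z.SS.Val

/-!
# P236, block NB: the class `η`
-/

open CategoryTheory MonoidalCategory Limits Pretriangulated
open Functor.LaxMonoidal Functor.OplaxMonoidal
open Vale.Agent.P251 Vale.Agent.P251.T Vale.Agent.P251.M Vale.Agent.P251.I Vale.Agent.P251.G
  Vale.Agent.P236Z.Cat Vale.Agent.P236Z.Mod Vale.Agent.P236Z.Top

noncomputable section

namespace Vale.Agent.P236Z.SS

namespace Eta1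

open Om

section Sum

variable {D : Type 1} [Category.{0} D] [Preadditive D] {X Y : D}

/-- the trace -/
def s3 (g : X ⟶ X) : X ⟶ X := 𝟙 X + g + g ≫ g

theorem sum3 (g : X ⟶ X) : ∑ i ∈ Finset.range 3, Dt.pw g i = s3 g := by
  simp [Finset.sum_range_succ, Dt.pw, s3]

theorem sum9 (g : X ⟶ X) : ∑ i ∈ Finset.range 9, Dt.pw g i = s3 (g ≫ g ≫ g) ≫ s3 g := by
  simp only [Finset.sum_range_succ, Finset.sum_range_zero, Dt.pw, s3, Preadditive.add_comp,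
    Preadditive.comp_add, Category.assoc, Category.id_comp, Category.comp_id]
  abel

@[reassoc]
theorem s3_nat {a : X ⟶ X} {b : Y ⟶ Y} {f : X ⟶ Y} (h : f ≫ b = a ≫ f) :
    f ≫ s3 b = s3 a ≫ f := by
  simp only [s3, Preadditive.add_comp, Preadditive.comp_add, Category.assoc, Category.id_comp,
    Category.comp_id, h, reassoc_of% h]

theorem map_s3 {D' : Type 1} [Category.{0} D'] [Preadditive D'] (F : D ⥤ D') [F.Additive]
    (g : X ⟶ X) : F.map (s3 g) = s3 (F.map g) := by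
  rw [s3, s3, F.map_add, F.map_add, F.map_id, F.map_comp]

theorem s3_sub (g : X ⟶ X) : s3 g ≫ (𝟙 X - g) = 𝟙 X - g ≫ g ≫ g := by
  simp only [s3, Preadditive.add_comp, Preadditive.comp_sub, Category.assoc, Category.id_comp,
    Category.comp_id]
  abel

end Sum

section Step

variable {T₀ : TTC} {F : I.SpaceFunctor T₀.C} {T T' : TTC} {K : Type 1} [Category.{0} K]
  [MonoidalCategory K] [SymmetricCategory K] {tK : Tw K} {u : K ⥤ I.FCat} {v : I.FCat ⥤ K}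
  [v.Braided]

theorem h_shift (L : Lvl T₀ F T tK u v) (Y : T.C) :
    (L.t.h (Y⟦(1 : ℤ)⟧)).hom = (L.t.h Y).hom⟦(1 : ℤ)⟧' := by
  have h1 : (L.t.h ((𝟙_ T.C)⟦(1 : ℤ)⟧)).hom = 𝟙 _ :=
    triv_iso _ ((L.tv.F.commShiftIso (1 : ℤ)).app _ ≪≫
      (shiftFunctor _ (1 : ℤ)).mapIso (Functor.Monoidal.εIso L.tv.F).symm).symm (L.tv_h _)
  rw [← cancel_epi (TensorTriangulated.e Y).hom, L.t.nat, L.t.ten, h1, tensorHom_id,
    TensorTriangulated.e_naturality]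

variable {hv : ∀ X, (tK.h (v.obj X)).hom = 𝟙 _} {L : Lvl T₀ F T tK u v}
  {L' : Lvl T₀ F T' (Rt.tw tK) (Rt.U tK ⋙ u) (Rt.triv v hv)} (s : Step L L')

/-- the restriction commutes with the suspension -/
def cx (Y : T'.C) : s.U.F.obj (Y⟦(1 : ℤ)⟧) ≅ (s.U.F.obj Y)⟦(1 : ℤ)⟧ :=
  (s.U.F.commShiftIso (1 : ℤ)).app Y

@[reassoc]
theorem cx_nat {Y Y' : T'.C} (f : Y ⟶ Y') :
    s.U.F.map (f⟦(1 : ℤ)⟧') ≫ (cx s Y').hom = (cx s Y).hom ≫ (s.U.F.map f)⟦(1 : ℤ)⟧' :=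
  (s.U.F.commShiftIso (1 : ℤ)).hom.naturality f

theorem dist {X Y Z : T'.C} {f : X ⟶ Y} {g : Y ⟶ Z} {h : Z ⟶ X⟦(1 : ℤ)⟧} (D : H.Dist f g h) :
    H.Dist (s.U.F.map f) (s.U.F.map g) (s.U.F.map h ≫ (cx s X).hom) := s.U.F.map_distinguished _ D

theorem flat2_eq {A : T.C} {B : T'.C} (r : ((s.ind.obj A)⟦(1 : ℤ)⟧)⟦(1 : ℤ)⟧ ⟶ B) : s.flat2 r =
    ((s.un A)⟦(1 : ℤ)⟧' ≫ (cx s _).inv)⟦(1 : ℤ)⟧' ≫ (cx s _).inv ≫ s.U.F.map r := rfl

theorem flat2_comp {A : T.C} {B B' : T'.C} (r : ((s.ind.obj A)⟦(1 : ℤ)⟧)⟦(1 : ℤ)⟧ ⟶ B)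
    (k : B ⟶ B') : s.flat2 (r ≫ k) = s.flat2 r ≫ s.U.F.map k := by
  simp only [flat2_eq, Functor.map_comp, Category.assoc]

theorem flat2_shift {A : T.C} {Y : T'.C} (σ : s.ind.obj A ⟶ Y) :
    s.flat2 ((σ⟦(1 : ℤ)⟧')⟦(1 : ℤ)⟧') ≫ (cx s _).hom ≫ (cx s _).hom⟦(1 : ℤ)⟧' =
      ((s.un A ≫ s.U.F.map σ)⟦(1 : ℤ)⟧')⟦(1 : ℤ)⟧' := by
  rw [flat2_eq, Category.assoc, Category.assoc, cx_nat_assoc, Iso.inv_hom_id_assoc,
    ← Functor.map_comp, ← Functor.map_comp, cx_nat, Category.assoc, Iso.inv_hom_id_assoc,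
    ← Functor.map_comp]

theorem flat2_inj {A : T.C} {B : T'.C} {r r' : ((s.ind.obj A)⟦(1 : ℤ)⟧)⟦(1 : ℤ)⟧ ⟶ B} {e : ℤ}
    (h : s.flat2 r = e • s.flat2 r') : r = e • r' := by
  have h1 : s.flat2 (r - e • r') = 0 := by
    rw [← sub_eq_zero] at h
    simpa only [flat2_eq, Functor.map_sub, Functor.map_zsmul, Preadditive.comp_sub,
      Preadditive.comp_zsmul] using h
  let Φ := shiftFunctor T'.C (1 : ℤ) ⋙ shiftFunctor T'.C (1 : ℤ)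
  obtain ⟨σ, hσ⟩ := Φ.map_surjective ((r - e • r') ≫ (Φ.objObjPreimageIso B).inv)
  have h2 := flat2_shift s σ
  have h3 : (σ⟦(1 : ℤ)⟧')⟦(1 : ℤ)⟧' = (r - e • r') ≫ (Φ.objObjPreimageIso B).inv := hσ
  rw [h3, flat2_comp, h1, zero_comp, zero_comp, eq_comm, Functor.map_eq_zero_iff,
    Functor.map_eq_zero_iff] at h2
  rw [s.un_ext (f := σ) (g := 0) (by rw [h2, Functor.map_zero, comp_zero]), Functor.map_zero,
    Functor.map_zero] at h3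
  rw [← sub_eq_zero, ← cancel_mono (Φ.objObjPreimageIso B).inv, zero_comp]
  exact h3.symm

end Step

variable {W : Tower}

theorem exists_isTr : ∃ t : 𝟙_ W.T₁.C ⟶ W.s₁.O, IsTr t := by
  refine ⟨W.s₁.un' _ ≫ W.s₁.ind.map (η W.s₁.U.F), (isTr_iff _).2 ?_⟩
  have h : W.s₁.γ' (𝟙_ W.T₁.C) = 𝟙 _ := by
    rw [← W.s₁.γ_γ', Step.γ, W.L₁.t.one, W.s₁.U.F.map_id, Category.id_comp]
  rw [W.s₁.map_eq_sum, h]
  simp [Fin.sum_univ_three, Step.pr_nat]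

theorem oe_tr {t : 𝟙_ W.T₁.C ⟶ W.s₁.O} (ht : IsTr t) :
    W.s₁.oe ≫ t = s3 (W.L₁.t.h W.s₁.O).hom :=
  W.s₁.un_ext (by rw [Functor.map_comp, un_oe_assoc, (isTr_iff t).1 ht, map_s3, s3])

theorem O_zero (k : W.s₁.O ⟶ W.s₁.O⟦(1 : ℤ)⟧) : k = 0 := by
  refine W.s₁.un_ext ?_
  rw [Functor.map_zero, comp_zero, ← cancel_mono (cx W.s₁ _).hom, zero_comp,
    ← Category.comp_id (_ ≫ _), ← CategoryTheory.Functor.map_id, ← W.s₁.sum_pr',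
    Functor.map_sum, Preadditive.comp_sum]
  refine Finset.sum_eq_zero fun i _ => ?_
  rw [← Category.assoc (pw _ i), Functor.map_comp, ← Category.assoc,
    sph_unit.eq_zero ((unit_conn W.F).shift 1 1 (zero_add 1)) zero_lt_one (_ ≫ _), zero_comp]

end Eta1

open Om Eta1 in
/-- **ETA1** -/
theorem eta1 (W : Tower) : ETA1 W := by
  intro g x hom C e₀ e₁ p D he
  obtain ⟨⟨r9, ⟨P9, f₀, f₁, p9, b9, D9, D9', hf, hr9⟩, _, rfl, hi9⟩, -, hUL⟩ := g.c9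
  obtain ⟨⟨r, ⟨P, g₀, g₁, p1, b, D1, D1', hg, hr⟩, hi⟩, -⟩ := g.c1
  obtain ⟨t, ht⟩ := exists_isTr (W := W)
  obtain ⟨f, hf0, hf1⟩ := D.map₃ D9 (W.s₂.ind.map t) (W.s₂.ind.map t) (by
    rw [Preadditive.sub_comp, Preadditive.comp_sub, W.L₂.t.nat, Category.id_comp, Category.comp_id])
  obtain ⟨ξ, hξ⟩ := D.desc₃ (f ≫ p9 ≫ x.Y.one - (3 : ℤ) • (p ≫ x.Y.one)) (W.s₂.un_ext (by
    have h := hom t ht
    rw [Mdl.one₁] at h
    rw [Preadditive.comp_sub, Preadditive.comp_zsmul, reassoc_of% hf0, reassoc_of% hf,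
      reassoc_of% he, Tower.gq]
    simp only [Functor.map_sub, Functor.map_zsmul, Functor.map_comp, Preadditive.comp_sub,
      Preadditive.comp_zsmul, Step.un_nat_assoc, un_oe_assoc, h, sub_self, Functor.map_zero,
      comp_zero]))
  refine ⟨ξ, ?_, ?_⟩
  · rw [hξ, add_sub_cancel, Category.assoc, Category.assoc, leftUnitor_inv_naturality_assoc,
      whisker_exchange, whiskerRight_id, unitors_inv_equal, Category.assoc, Category.assoc,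
      Iso.inv_hom_id_assoc, reassoc_of% D9'.zero₁₂, zero_comp, comp_zero]
  obtain ⟨n₀, hn₀⟩ := (dist W.s₂ D).lift₁ ((W.s₂.un _ ≫ s3 (W.s₂.γ W.s₂.O))⟦(1 : ℤ)⟧') (by
    rw [← Functor.map_comp, Functor.map_sub, W.s₂.U.F.map_id, Category.assoc, s3_sub, W.s₂.γ_cube,
      Preadditive.comp_sub, W.L₁.t.nat, W.L₁.t.one, Category.comp_id, Category.id_comp, sub_self,
      Functor.map_zero])
  obtain ⟨n, hn, hn'⟩ : ∃ n : (𝟙_ W.T₁.C)⟦(1 : ℤ)⟧ ⟶ W.s₂.U.F.obj C,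
      n ≫ W.s₂.U.F.map e₁ ≫ (cx W.s₂ _).hom = (W.s₂.un _ ≫ s3 (W.s₂.γ W.s₂.O))⟦(1 : ℤ)⟧' ∧
      n ≫ W.s₂.U.F.map p = 0 := by
    refine ⟨n₀ - n₀ ≫ W.s₂.U.F.map p ≫ η W.s₂.U.F ≫ W.s₂.un _ ≫ W.s₂.U.F.map e₀, ?_, ?_⟩
    · simp only [Preadditive.sub_comp, Category.assoc, (dist W.s₂ D).zero₂₃, comp_zero, sub_zero,
        hn₀]
    · simp only [Preadditive.sub_comp, Category.assoc, ← Functor.map_comp, he, un_oe,
        Functor.Monoidal.η_ε, Category.comp_id, sub_self]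
  obtain ⟨ι, hι, hι'⟩ := (dist W.s₂ D9').map₁ D1' (η W.s₂.U.F) W.UL.hom hUL
  obtain ⟨κ, hκ⟩ := (dist W.s₂ D9).desc₃ (ι ≫ g₁) (W.s₂.cof_ext
    ((O_zero _).trans comp_zero.symm) ((O_zero _).trans (O_zero _).symm)
    ((O_zero _).trans (O_zero _).symm))
  obtain ⟨κ, rfl⟩ := (shiftFunctor W.T₁.C (1 : ℤ)).map_surjective κ
  have : IsIso (W.s₁.flat2 (W.s₂.flat2 r9 ≫ W.UL.hom)) := by
    rw [flat2_comp]
    infer_instance
  obtain ⟨e, hs, he'⟩ := ((sph_unit.shift 1).shift 1).sign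
    (W.s₁.flat2 (W.s₂.flat2 r9 ≫ W.UL.hom)) (W.s₁.flat2 r)
  have h1 : s3 (W.L₁.t.h W.s₁.O).hom ≫ W.s₂.un _ ≫ s3 (W.s₂.γ W.G) ≫ κ =
      e • s3 (W.L₁.t.h W.s₁.O).hom := by
    have h2 := congrArg (· ≫ b ≫ g₁⟦(1 : ℤ)⟧') (flat2_inj W.s₁ he')
    have h3 := flat2_shift W.s₂ (∑ i ∈ Finset.range 9, Dt.pw (W.L₂.t.h W.G).hom i)
    rw [← hr9, flat2_comp, Functor.map_comp, Category.assoc, Category.assoc, cx_nat_assoc, sum9,
      W.s₂.U.F.map_comp, map_s3, map_s3, W.s₂.cube_h, s3_nat_assoc (W.L₁.t.nat _)] at h3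
    simp only [Preadditive.zsmul_comp, hr, Category.assoc, ← reassoc_of% hι', sum3] at h2
    rw [← Functor.map_comp, ← hκ, Category.assoc, Functor.map_comp, Functor.map_comp,
      reassoc_of% h3, ← Functor.map_comp, ← Functor.map_comp, ← Functor.map_zsmul,
      ← Functor.map_zsmul] at h2
    simpa only [Category.assoc] using (shiftFunctor _ (1 : ℤ)).map_injective
      ((shiftFunctor _ (1 : ℤ)).map_injective h2)
  have h2 : t ≫ W.s₂.un _ ≫ s3 (W.s₂.γ W.G) ≫ κ = e • t := U_ext W.s₁ (by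
    rw [← cancel_epi (ε W.s₁.U.F), ← un_oe, Category.assoc, Category.assoc, ← Functor.map_comp,
      ← Functor.map_comp, reassoc_of% oe_tr ht, h1, Preadditive.comp_zsmul, oe_tr ht])
  refine ⟨P, g₀, g₁, p1, n ≫ W.s₂.U.F.map f ≫ ι, t, e, D1, hg, ht, hs, ?_, ?_⟩
  · rw [Category.assoc, Category.assoc, ← hκ, Category.assoc, ← W.s₂.U.F.map_comp_assoc, ← hf1,
      Functor.map_comp, Category.assoc, cx_nat_assoc, reassoc_of% hn, ← Functor.map_comp,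
      ← Functor.map_comp, Category.assoc, ← s3_nat_assoc (W.s₂.γ_nat _), Step.un_nat_assoc, h2,
      Functor.map_zsmul]
  · have h3 : Mdl.flat1 ξ = (W.s₂.un _)⟦(1 : ℤ)⟧' ≫ (cx W.s₂ _).inv ≫ W.s₂.U.F.map ξ := rfl
    have h4 : (cx W.s₂ W.s₂.O).inv ≫ W.s₂.γ _ = (W.s₂.γ _)⟦(1 : ℤ)⟧' ≫ (cx W.s₂ _).inv := by
      rw [Iso.inv_comp_eq, ← cx_nat_assoc, Iso.hom_inv_id, Category.comp_id, ← h_shift]
    have h5 : Mdl.flat1 ξ ≫ s3 (W.s₂.γ x.X) = n ≫ W.s₂.U.F.map (e₁ ≫ ξ) := by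
      rw [h3, Category.assoc, Category.assoc, s3_nat (W.s₂.γ_nat ξ), s3_nat_assoc h4, ← map_s3,
        ← Functor.map_comp_assoc, ← hn]
      simp
    rw [Category.assoc, Category.assoc, ← reassoc_of% hι, Mdl.one₁, Functor.Monoidal.η_ε_assoc]
    rw [hξ, s3] at h5
    simpa [reassoc_of% hn'] using h5

end Vale.Agent.P236Z.SS
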