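import Vale.Agent.P236Z.SS.Tow

/-!
# P236, block NB: the fundamental class of the circle is a boundary
-/

set_option linter.all false

open CategoryTheory MonoidalCategory Limits Pretriangulated
open Functor.LaxMonoidal Functor.OplaxMonoidal
open Vale.Agent.P251 Vale.Agent.P251.T Vale.Agent.P251.M Vale.Agent.P251.I Vale.Agent.P251.G
  Vale.Agent.P236Z.Cat Vale.Agent.P236Z.Mod Vale.Agent.P236Z.Top

noncomputable section

namespace Vale.Agent.P236Z.SS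

namespace Eta2

variable {W : Tower}

theorem sgn {Z : W.T₀.C} (α β : Z ⟶ (𝟙_ W.T₀.C)⟦(1 : ℤ)⟧) [IsIso α] [IsIso β] :
    ∃ e, Sg e ∧ α = e • β := by
  have key : ∀ (α β : Z ⟶ (𝟙_ W.T₀.C)⟦(1 : ℤ)⟧) [IsIso β], ∃ m : ℤ, α = m • β := fun α β _ => by
    obtain ⟨g, hg⟩ := (shiftFunctor W.T₀.C (1 : ℤ)).map_surjective (inv β ≫ α)
    obtain ⟨m, rfl⟩ := exists_int_unit W.F g
    exact ⟨m, by simpa using ((IsIso.eq_inv_comp β).1 hg).symm⟩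
  obtain ⟨m, hm⟩ := key α β
  obtain ⟨n, hn⟩ := key β α
  refine ⟨m, Int.eq_one_or_neg_one_of_mul_eq_one (v := n) (sub_eq_zero.1
    (eq_zero_of_zsmul_id W.F _ ((shiftFunctor W.T₀.C (1 : ℤ)).map_injective ?_))), hm⟩
  rw [← cancel_epi α, Functor.map_zsmul, CategoryTheory.Functor.map_id, Functor.map_zero,
    Preadditive.comp_zsmul, Category.comp_id, comp_zero, sub_smul, mul_smul, ← hn, ← hm, one_smul,
    sub_self]

@[reassoc]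
theorem cs_nat {X Y : W.T₁.C} (g : X ⟶ Y) :
    (U W).map (g⟦(1 : ℤ)⟧') ≫ (cs W Y).hom = (cs W X).hom ≫ ((U W).map g)⟦(1 : ℤ)⟧' :=
  (U W).commShiftIso_hom_naturality g 1

theorem un_dd (m : ℤ) {S S' : W.T₀.C} (g : S ⟶ S') :
    (W.s₁.un S ≫ dd m _) ≫ (U W).map (W.s₁.ind.map g) = g ≫ W.s₁.un S' ≫ dd m _ := by
  rw [← W.s₁.un_nat_assoc, Category.assoc, dd, dd]
  split_ifs <;> simp [W.s₁.γ_nat, W.s₁.γ_nat_assoc]

theorem un_shp {S : W.T₀.C} {Y : W.T₁.C} (u : S ⟶ (U W).obj Y) :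
    W.s₁.un S ≫ (U W).map (shp u) = u := by
  rw [shp, Functor.map_comp, W.s₁.un_nat_assoc, W.s₁.un_cu, Category.comp_id]

theorem un_oe {S : W.T₀.C} {Y : W.T₁.C} (σ : S ⟶ 𝟙_ _) (g : 𝟙_ _ ⟶ Y) :
    W.s₁.un S ≫ (U W).map (W.s₁.ind.map σ ≫ W.s₁.oe ≫ g) = σ ≫ ε (U W) ≫ (U W).map g := by
  have h : W.s₁.un _ ≫ (U W).map W.s₁.oe = ε (U W) := (W.s₁.adj.homEquiv _ _).apply_symm_apply _
  rw [Functor.map_comp, Functor.map_comp, W.s₁.un_nat_assoc, reassoc_of% h]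

theorem sh_ext {X : W.T₁.C} {Y : W.T₀.C} {f g : X ⟶ (W.s₁.ind.obj Y)⟦(1 : ℤ)⟧}
    (h : (U W).map f = (U W).map g) : f = g := by
  rw [← cancel_mono ((W.s₁.ind.commShiftIso (1 : ℤ)).inv.app Y)]
  exact W.s₁.coind_ext (by rw [Functor.map_comp, Functor.map_comp, h])

theorem val_eq (x : Mdl W) (τ : Tow W) {m t n : ℤ} (h : m + t = 2 * n)
    (u : τ.S m t ⟶ (U W).obj x.X₁) :
    τ.val x m t u = HRing.of (Λ W) x.P.E n ((τ.φ m t n h).hom ≫ u ≫ x.Y.e.hom) := by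
  obtain rfl : n = (m + t) / 2 := by omega
  exact dif_pos ⟨(m + t) / 2, by omega⟩

end Eta2

open Eta2

theorem eta2 (W : Tower) : ETA2 W := by
  rintro x τ _ ⟨P, e₀, e₁, p, y, t, e, D, h1, h2, he, h3, rfl⟩ ζ
  have k0 : (-2 : ℤ) + 1 = -1 := by norm_num
  have k1 : (1 : ℤ) + 1 = 2 := by norm_num
  have k2 : (-1 : ℤ) + 1 = 0 := by norm_num
  have k3 : (-2 : ℤ) + 2 = 2 * 0 := by norm_num
  let σ' : τ.S (-2) 2 ⟶ 𝟙_ _ := (τ.φ (-2) 2 0 k3).inv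
  haveI : IsIso σ' := (τ.φ (-2) 2 0 k3).isIso_inv
  obtain ⟨w', hw'⟩ := (shiftFunctor W.T₁.C (1 : ℤ)).map_surjective
    ((τ.τ (-1) k1).inv ≫ τ.b 2 k0 ≫ (W.s₁.ind.map σ')⟦(1 : ℤ)⟧')
  obtain ⟨κ', hκ'⟩ := τ.gen_b 2 k0
  obtain ⟨σ, hσ⟩ := (shiftFunctor W.T₀.C (1 : ℤ)).map_surjective
    ((τ.τ₀ (-1) k1).inv ≫ κ'.hom ≫ σ'⟦(1 : ℤ)⟧')
  have c1 : shp (τ.gen (-1) 1) ≫ w' = -(W.s₁.ind.map σ ≫ (𝟙 _ - (W.L₁.t.h W.s₁.O).hom)) := by
    refine W.s₁.un_ext ((shiftFunctor W.T₀.C (1 : ℤ)).map_injective ?_)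
    have e1 : W.s₁.un _ ≫ (U W).map (-(W.s₁.ind.map σ ≫ (𝟙 _ - (W.L₁.t.h W.s₁.O).hom))) =
        σ ≫ W.s₁.un _ ≫ dd (-2) _ := by
      rw [← Preadditive.comp_neg, neg_sub, Functor.map_comp, W.s₁.un_nat_assoc, dd,
        if_pos (by decide), Functor.map_sub, CategoryTheory.Functor.map_id]
    rw [e1, (U W).map_comp, ← Category.assoc (W.s₁.un _), un_shp, Functor.map_comp,
      Functor.map_comp, hσ, ← cancel_epi (τ.τ₀ (-1) k1).hom, ← reassoc_of% τ.gen_τ (-1) k1, ← cs_nat,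
      ← Functor.map_comp_assoc, hw', Iso.hom_inv_id_assoc, Functor.map_comp_assoc, cs_nat,
      reassoc_of% hκ', ← Functor.map_comp, un_dd]
    simp
  obtain ⟨κ, hκ⟩ := τ.gen_b 1 k2
  haveI := τ.gen_iso 0 1 (by decide)
  let j := (U W).map ζ.hom ≫ (cs W _).hom ≫ (η (U W))⟦(1 : ℤ)⟧'
  haveI : IsIso (σ⟦(1 : ℤ)⟧') := hσ ▸ inferInstance
  obtain ⟨c, hc, c2⟩ := sgn (κ.hom ≫ σ⟦(1 : ℤ)⟧') (τ.gen 0 1 ≫ j)
  have cc : c * c = 1 := by rcases hc with rfl | rfl <;> rfl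
  have ee : e * e = 1 := by rcases he with rfl | rfl <;> rfl
  have c3 : τ.b 1 k2 ≫ (W.s₁.ind.map σ)⟦(1 : ℤ)⟧' = c • ζ.hom ≫ t⟦(1 : ℤ)⟧' := by
    refine sh_ext ?_
    have e1 : (U W).map t = η (U W) ≫ W.s₁.un _ ≫ dd (-1) _ := by
      rw [show dd (-1) W.s₁.O = dd 1 _ from rfl, ← (h2 : _ = _), Functor.Monoidal.η_ε_assoc]
    rw [← cancel_epi (τ.gen 0 1), ← cancel_mono (cs W _).hom, Functor.map_comp, Category.assoc,
      Category.assoc, cs_nat, reassoc_of% hκ, ← Functor.map_comp, un_dd, Functor.map_comp,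
      reassoc_of% c2]
    simp [j, cs_nat, e1]
  obtain ⟨w, c4, c5⟩ := (τ.dist 1 k2).map₂ D ((e * c) • W.s₁.ind.map σ) (ζ.hom ≫ y) (by
    rw [Functor.map_zsmul, Preadditive.comp_zsmul, c3, smul_smul, mul_assoc, cc, mul_one,
      Category.assoc, h3, Preadditive.comp_zsmul])
  obtain ⟨v, hv⟩ := (τ.dist 1 k2).desc₂ (w + (e * c) • w') (by
    rw [Preadditive.comp_add, c4, Preadditive.comp_zsmul, c1, Preadditive.zsmul_comp, smul_neg,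
      add_neg_cancel])
  have c6 : v ≫ W.s₁.oe ≫ x.one₁ = 0 := by
    have e1 : v = W.s₁.un' _ ≫ W.s₁.ind.map ((U W).map v ≫ W.s₁.pr _) := W.s₁.coind_ext (by
      rw [Functor.map_comp, Category.assoc, W.s₁.pr_nat, W.s₁.un'_pr_assoc])
    have e2 : W.s₁.ind.map ((U W).map v ≫ W.s₁.pr _) ≫ W.s₁.oe ≫ x.one₁ = 0 := W.s₁.un_ext (by
      rw [un_oe, Functor.map_zero, comp_zero, ← cancel_epi (inv j), ← cancel_mono x.Y.e.hom,
        comp_zero, zero_comp]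
      exact x.A.odd 0 _)
    rw [e1, Category.assoc, e2, comp_zero]
  refine ⟨σ' ≫ ε (U W) ≫ (U W).map x.one₁, -(e * c), ?_, ?_, ?_⟩
  · rcases he with rfl | rfl <;> rcases hc with rfl | rfl <;> simp [Sg]
  · rw [val_eq x τ k3, ← of_one]
    refine congrArg _ ?_
    rw [Category.assoc, Category.assoc]
    exact ((τ.φ (-2) 2 0 k3).hom_inv_id_assoc _).trans (x.Y.e_one.trans (Category.id_comp _).symm)
  · have e1 : -(e * c) • τ.I (-1) 0 1 ≫ ζ.hom ≫ y ≫ p ≫ x.one₁ = w' ≫ W.s₁.oe ≫ x.one₁ := by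
      rw [reassoc_of% c5, reassoc_of% h1, eq_sub_of_add_eq hv.symm,
        Preadditive.sub_comp, Category.assoc, c6, comp_zero, zero_sub, neg_smul, smul_neg, neg_neg,
        Preadditive.zsmul_comp, smul_smul, mul_mul_mul_comm, ee, cc, mul_one, one_smul]
    have e2 : shp (σ' ≫ ε (U W) ≫ (U W).map x.one₁) = W.s₁.ind.map σ' ≫ W.s₁.oe ≫ x.one₁ :=
      W.s₁.un_ext (by rw [un_shp, un_oe])
    rw [Tow.IsK, e1, e2, Functor.map_comp, hw', Functor.map_comp]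
    simp

end Vale.Agent.P236Z.SS
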