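import Vale.Agent.P236Z.Nb.Defs

/-!
# P236, block NB: the diagonal is a neighbourhood deformation retract
-/

namespace Vale.Agent.P236Z.Nb

open Vale.Agent.P251.G Matrix Set OnePoint

namespace HepH

variable {I : Type} [Fintype I] [DecidableEq I] {P Q : Matrix I I ℂ}

omit [DecidableEq I] in
theorem sandwich (hQ : IsProj 1 Q) (A : Matrix I I ℂ) : Q * A * Q = (A * Q).trace • Q := by
  obtain ⟨y, -, -, rfl⟩ := hQ.exists_lineP
  rw [lineP, vecMulVec_mul, vecMulVec_mul_vecMulVec, mul_vecMulVec, trace_vecMulVec,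
    vecMulVec_smul, ← dotProduct_mulVec, dotProduct_comm]

/-- the square of the distance -/
noncomputable def dd (P Q : Matrix I I ℂ) : ℝ := ∑ i, nsq ((P - Q) i)

omit [DecidableEq I] in
theorem dd_nonneg (P Q : Matrix I I ℂ) : 0 ≤ dd P Q := Finset.sum_nonneg fun _ _ => nsq_nonneg _

omit [DecidableEq I] in
theorem dd_eq_zero : dd P Q = 0 ↔ P = Q := by
  refine (Finset.sum_eq_zero_iff_of_nonneg fun _ _ => nsq_nonneg _).trans ?_
  rw [← sub_eq_zero]
  refine ⟨fun h => ?_, fun h i _ => by rw [h]; exact nsq_zero⟩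
  ext i j
  exact congrFun (nsq_eq_zero.1 (h i (Finset.mem_univ i))) j

omit [DecidableEq I] in
theorem trace_eq (hP : IsProj 1 P) (hQ : IsProj 1 Q) :
    (P * Q).trace = ((1 - dd P Q / 2 : ℝ) : ℂ) := by
  have h1 : ((dd P Q : ℝ) : ℂ) = ((P - Q) * (P - Q)ᴴ).trace := by
    rw [dd, Complex.ofReal_sum, Matrix.trace]
    refine Finset.sum_congr rfl fun i _ => ?_
    rw [nsq_eq_dotProduct, dotProduct_comm]
    rfl
  rw [conjTranspose_sub, hP.herm, hQ.herm, Matrix.sub_mul, Matrix.mul_sub, Matrix.mul_sub,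
    hP.idem, hQ.idem, trace_sub, trace_sub, trace_sub, hP.trace, hQ.trace, trace_mul_comm Q P] at h1
  push_cast at h1 ⊢
  rw [h1]
  ring

/-- the path from the identity to `P` -/
noncomputable def mm (P : Matrix I I ℂ) (t : ℝ) : Matrix I I ℂ :=
  ((1 - t : ℝ) : ℂ) • (1 : Matrix I I ℂ) + (t : ℂ) • P

/-- the deformation -/
noncomputable def dm (P Q : Matrix I I ℂ) (t : ℝ) : Matrix I I ℂ :=
  (mm P t * Q * mm P t).trace⁻¹ • (mm P t * Q * mm P t)

theorem mm_herm (hP : IsProj 1 P) (t : ℝ) : (mm P t)ᴴ = mm P t := by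
  rw [mm, conjTranspose_add, conjTranspose_smul, conjTranspose_smul, conjTranspose_one, hP.herm,
    Complex.star_def, Complex.conj_ofReal, Complex.conj_ofReal]

theorem trace_mm (hP : IsProj 1 P) (hQ : IsProj 1 Q) (t : ℝ) : (mm P t * Q * mm P t).trace =
    (((1 - t) ^ 2 + (2 * t - t ^ 2) * (1 - dd P Q / 2) : ℝ) : ℂ) := by
  have h1 : (P * Q * P).trace = (P * Q).trace := by
    rw [trace_mul_comm, ← Matrix.mul_assoc, hP.idem]
  simp only [mm, Matrix.add_mul, Matrix.mul_add, Matrix.smul_mul, Matrix.mul_smul, Matrix.one_mul,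
    Matrix.mul_one, trace_add, trace_smul, h1, trace_mul_comm Q P, trace_eq hP hQ, hQ.trace,
    smul_eq_mul]
  push_cast
  ring

theorem trace_ne (hP : IsProj 1 P) (hQ : IsProj 1 Q) (h : dd P Q < 1) (t : unitInterval) :
    (mm P t * Q * mm P t).trace ≠ 0 := by
  rw [trace_mm hP hQ, Complex.ofReal_ne_zero]
  have h0 := t.2.1
  have h1 := t.2.2
  have h2 : 0 ≤ (2 * (t : ℝ) - t ^ 2) * (1 / 2 - dd P Q / 2) :=
    mul_nonneg (by nlinarith) (by linarith)
  nlinarith [sq_nonneg (1 - (t : ℝ))]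

theorem isProj_dm (hP : IsProj 1 P) (hQ : IsProj 1 Q) (h : dd P Q < 1) (t : unitInterval) :
    IsProj 1 (dm P Q t) := by
  have h0 := trace_ne hP hQ h t
  refine ⟨?_, ?_, ?_⟩
  · have h1 : mm P t * Q * mm P t * (mm P t * Q * mm P t) =
        (mm P t * Q * mm P t).trace • (mm P t * Q * mm P t) := by
      have h2 := sandwich hQ (mm P t * mm P t)
      rw [trace_mul_cycle (mm P t) Q, ← Matrix.smul_mul, ← Matrix.mul_smul, ← h2]
      simp only [Matrix.mul_assoc]
    rw [dm, Matrix.smul_mul, Matrix.mul_smul, h1, smul_smul _ (trace _), inv_mul_cancel₀ h0,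
      one_smul]
  · rw [dm, conjTranspose_smul, conjTranspose_mul, conjTranspose_mul, mm_herm hP, hQ.herm,
      ← Matrix.mul_assoc, trace_mm hP hQ, star_inv₀, Complex.star_def, Complex.conj_ofReal]
  · rw [dm, trace_smul, smul_eq_mul, inv_mul_cancel₀ h0, Nat.cast_one]

theorem dm_zero (hQ : IsProj 1 Q) : dm P Q 0 = Q := by
  simp [dm, mm, hQ.trace]

theorem dm_self (hP : IsProj 1 P) (t : ℝ) : dm P P t = P := by
  have h1 : mm P t * P * mm P t = P := by
    simp only [mm, Matrix.add_mul, Matrix.mul_add, Matrix.smul_mul, Matrix.mul_smul,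
      Matrix.one_mul, Matrix.mul_one, hP.idem, smul_smul, ← add_smul]
    push_cast
    rw [show (1 - (t : ℂ)) * (1 - t + t) + t * (1 - t + t) = 1 by ring, one_smul]
  rw [dm, h1, hP.trace, Nat.cast_one, inv_one, one_smul]

theorem dm_one (hP : IsProj 1 P) (hQ : IsProj 1 Q) (h : dd P Q < 1) : dm P Q 1 = P := by
  have h0 := trace_ne hP hQ h 1
  have h1 : mm P 1 = P := by simp [mm]
  rw [Set.Icc.coe_one, h1] at h0
  rw [dm, h1]
  rw [sandwich hP Q, trace_smul, hP.trace, Nat.cast_one, smul_eq_mul, mul_one] at h0 ⊢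
  rw [smul_smul, inv_mul_cancel₀ h0, one_smul]

theorem cont_dm {X : Type} [TopologicalSpace X] {a b : X → Gr 1 I} {t : X → unitInterval}
    (ha : Continuous a) (hb : Continuous b) (ht : Continuous t)
    (h : ∀ x, dd (a x).P (b x).P < 1) : Continuous fun x => dm (a x).P (b x).P (t x) := by
  have h1 : Continuous fun x => mm (a x).P (t x) * (b x).P * mm (a x).P (t x) := by
    unfold mm
    fun_prop
  exact (h1.matrix_trace.inv₀ fun x => trace_ne (a x).isProj (b x).isProj (h x) (t x)).smul h1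

omit [DecidableEq I] in
theorem cont_dd {X : Type} [TopologicalSpace X] {a b : X → Gr 1 I} (ha : Continuous a)
    (hb : Continuous b) : Continuous fun x => dd (a x).P (b x).P :=
  continuous_finsetSum _ fun i _ => continuous_nsq.comp ((continuous_apply i).comp
    ((Gr.continuous_P.comp ha).sub (Gr.continuous_P.comp hb)))

/-- the distance from the diagonal -/
noncomputable def ss (d : Gr 1 I × Gr 1 I × Gr 1 I) : ℝ := dd d.1.P d.2.1.P + dd d.1.P d.2.2.P

omit [DecidableEq I] in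
theorem cont_ss : Continuous (ss : Gr 1 I × Gr 1 I × Gr 1 I → ℝ) :=
  (cont_dd continuous_fst (continuous_fst.comp continuous_snd)).add
    (cont_dd continuous_fst (continuous_snd.comp continuous_snd))

omit [DecidableEq I] in
theorem ss_lt {d : Gr 1 I × Gr 1 I × Gr 1 I} (h : ss d < 1) :
    dd d.1.P d.2.1.P < 1 ∧ dd d.1.P d.2.2.P < 1 :=
  ⟨lt_of_le_of_lt (le_add_of_nonneg_right (dd_nonneg _ _)) h,
    lt_of_le_of_lt (le_add_of_nonneg_left (dd_nonneg _ _)) h⟩

/-- the deformation of the neighbourhood -/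
noncomputable def df (d : Gr 1 I × Gr 1 I × Gr 1 I) (h : ss d < 1) (t : unitInterval) :
    Gr 1 I × Gr 1 I × Gr 1 I :=
  (d.1, ⟨_, isProj_dm d.1.isProj d.2.1.isProj (ss_lt h).1 t⟩,
    ⟨_, isProj_dm d.1.isProj d.2.2.isProj (ss_lt h).2 t⟩)

/-- the same on the compactification -/
noncomputable def hh (p : OnePoint (Gr 1 I × Gr 1 I × Gr 1 I) × unitInterval) :
    OnePoint (Gr 1 I × Gr 1 I × Gr 1 I) :=
  p.1.elim ∞ fun d => if h : ss d < 1 then (df d h p.2 : Gr 1 I × Gr 1 I × Gr 1 I) else ∞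

theorem hh_coe {d : Gr 1 I × Gr 1 I × Gr 1 I} (h : ss d < 1) (t : unitInterval) :
    hh (OnePoint.some d, t) = OnePoint.some (df d h t) := dif_pos h

theorem cont_hh {d : Gr 1 I × Gr 1 I × Gr 1 I} (h : ss d < 1) (t : unitInterval) :
    ContinuousAt hh (OnePoint.some d, t) := by
  refine ((isOpenEmbedding_coe.prodMap Topology.IsOpenEmbedding.id).continuousAt_iff
    (g := hh) (x := (d, t))).1 ?_
  have hW : IsOpen {q : (Gr 1 I × Gr 1 I × Gr 1 I) × unitInterval | ss q.1 < 1} :=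
    isOpen_lt (cont_ss.comp continuous_fst) continuous_const
  refine ContinuousOn.continuousAt (continuousOn_iff_continuous_domRestrict.2 ?_) (hW.mem_nhds h)
  have h1 : Continuous fun q : {q : (Gr 1 I × Gr 1 I × Gr 1 I) × unitInterval | ss q.1 < 1} =>
      df q.1.1 q.2 q.1.2 :=
    (continuous_subtype_val.fst.fst).prodMk
      (((cont_dm continuous_subtype_val.fst.fst continuous_subtype_val.fst.snd.fst
        continuous_subtype_val.snd fun q => (ss_lt q.2).1).subtype_mk _).prodMk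
      ((cont_dm continuous_subtype_val.fst.fst continuous_subtype_val.fst.snd.snd
        continuous_subtype_val.snd fun q => (ss_lt q.2).2).subtype_mk _))
  exact (continuous_coe.comp h1).congr fun q => (hh_coe q.2 q.1.2).symm

end HepH

open HepH in
/-- **HEP** -/
theorem hep (m : ℕ) : HEP m := by
  have h0 : ∀ d : CPm m × CPm m × CPm m, 0 ≤ ss d := fun d =>
    add_nonneg (dd_nonneg _ _) (dd_nonneg _ _)
  let u : CPm m × CPm m × CPm m → unitInterval := fun d =>
    ⟨min 1 (ss d), le_min zero_le_one (h0 d), min_le_left _ _⟩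
  have hu : Continuous u := (continuous_const.min cont_ss).subtype_mk _
  have h1 : ∀ d, u d < 1 → ss d < 1 := fun d h =>
    (min_lt_iff.1 (show min 1 (ss d) < 1 from h)).resolve_left (lt_irrefl _)
  have h2 : ∀ d : CPm m × CPm m × CPm m, ss d = 0 ↔ d.1 = d.2.1 ∧ d.2.1 = d.2.2 := by
    intro d
    rw [ss, add_eq_zero_iff_of_nonneg (dd_nonneg _ _) (dd_nonneg _ _), dd_eq_zero, dd_eq_zero]
    exact ⟨fun h => ⟨Gr.ext h.1, Gr.ext (h.1.symm.trans h.2)⟩,
      fun h => ⟨congrArg _ h.1, congrArg _ (h.1.trans h.2)⟩⟩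
  refine LC.pndr_of_local (D := LC.of (CPm m × CPm m × CPm m))
    (LC.extCompact (D := LC.of (CPm m × CPm m × CPm m)) u hu 1) hh ?_ (fun _ _ => rfl)
    (fun d => ?_) (fun d h => ?_) (fun d h t => ?_) fun d h => ?_
  · rintro ⟨x, t⟩ hx
    induction x using OnePoint.rec with
    | infty => exact absurd hx (lt_irrefl (1 : unitInterval))
    | coe d => exact (cont_hh (h1 d hx) t).continuousWithinAt
  · refine Iff.trans ?_ (h2 d)
    refine Subtype.ext_iff.trans ?_
    change min 1 (ss d) = 0 ↔ _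
    refine ⟨fun h => ?_, fun h => by rw [h]; exact min_eq_right zero_le_one⟩
    rcases min_eq_iff.1 h with h | h
    · exact absurd h.1 one_ne_zero
    · exact h.1
  · rw [hh_coe (h1 d h)]
    exact congrArg _ (Prod.ext rfl (Prod.ext (Gr.ext (dm_zero d.2.1.isProj))
      (Gr.ext (dm_zero d.2.2.isProj))))
  · obtain ⟨a, b, c⟩ := d
    obtain ⟨rfl, rfl⟩ : a = b ∧ b = c := h
    rw [hh_coe (by rw [(h2 _).2 ⟨rfl, rfl⟩]; exact zero_lt_one)]
    exact congrArg _ (Prod.ext rfl (Prod.ext (Gr.ext (dm_self a.isProj t))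
      (Gr.ext (dm_self a.isProj t))))
  · rw [hh_coe (h1 d h), LC.coe_mem_ptd]
    have e1 := dm_one d.1.isProj d.2.1.isProj (ss_lt (h1 d h)).1
    have e2 := dm_one d.1.isProj d.2.2.isProj (ss_lt (h1 d h)).2
    exact ⟨Gr.ext e1.symm, Gr.ext (e1.trans e2.symm)⟩

end Vale.Agent.P236Z.Nb
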