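import Vale.Agent.P236Z.Nb.Defs
import Mathlib.Topology.MetricSpace.HausdorffDimension
import Mathlib.Analysis.Complex.Basic
import Mathlib.Analysis.Calculus.ContDiff.Operations
import Mathlib.LinearAlgebra.Complex.FiniteDimensional

/-!
# P236, block NB: the equivariant map whose zeros are on the diagonal
-/

namespace Vale.Agent.P236Z.Nb

open Vale.Agent.P251.G Set Module

namespace SigH

section proj

variable {ι E : Type} [Countable ι] [NormedAddCommGroup E] [NormedSpace ℝ E]
  [FiniteDimensional ℝ E] {k : ℕ}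

theorem exists_out (hE : finrank ℝ E + 2 ≤ 2 * k) {N : ℕ} (hN : k < N)
    (f : ι → E → Fin N → ℂ) (hf : ∀ i, ContDiff ℝ 1 (f i)) :
    ∃ p : Fin N → ℂ, p ≠ 0 ∧ ∀ i (c : ℂ) x, c • f i x ≠ p := by
  have h1 : dimH (⋃ i, range fun q : ℂ × E => q.1 • f i q.2) < finrank ℝ (Fin N → ℂ) := by
    rw [dimH_iUnion]
    refine lt_of_le_of_lt (iSup_le fun i =>
      (contDiff_fst.smul ((hf i).comp contDiff_snd)).dimH_range_le) ?_
    rw [finrank_prod, Complex.finrank_real_complex, finrank_pi_fintype,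
      Complex.finrank_real_complex, Finset.sum_const, Finset.card_univ, Fintype.card_fin,
      smul_eq_mul, Nat.cast_lt]
    omega
  have : Nonempty (Fin N) := ⟨⟨0, by omega⟩⟩
  obtain ⟨p, h2, h3⟩ := (dense_compl_of_dimH_lt_finrank h1).inter_open_nonempty {0}ᶜ
    isOpen_compl_singleton ⟨1, one_ne_zero⟩
  exact ⟨p, h2, fun i c x h => h3 (mem_iUnion.2 ⟨i, (c, x), h⟩)⟩

theorem proj (hE : finrank ℝ E + 2 ≤ 2 * k) (n : ℕ) (f : ι → E → Fin (k + n) → ℂ)
    (hf : ∀ i, ContDiff ℝ 1 (f i)) :
    ∃ A : (Fin (k + n) → ℂ) →L[ℂ] (Fin k → ℂ), ∀ i x, A (f i x) = 0 → f i x = 0 := by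
  induction n with
  | zero => exact ⟨ContinuousLinearMap.id ℂ _, fun _ _ h => h⟩
  | succ n ih =>
    obtain ⟨p, hp, hp'⟩ := exists_out hE (N := k + n + 1) (by omega) f hf
    obtain ⟨j, hj⟩ := Function.ne_iff.1 hp
    have hj' : p j ≠ 0 := hj
    let T : (Fin (k + n + 1) → ℂ) →L[ℂ] (Fin (k + n) → ℂ) := ContinuousLinearMap.pi fun a =>
      ContinuousLinearMap.proj (j.succAbove a) -
        (p (j.succAbove a) / p j) • ContinuousLinearMap.proj j
    obtain ⟨A, hA⟩ := ih (fun i x => T (f i x)) fun i =>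
      (T.restrictScalars ℝ).contDiff.comp (hf i)
    refine ⟨A.comp T, fun i x h => ?_⟩
    have h1 : ∀ a, f i x a = f i x j / p j * p a := by
      refine Fin.succAboveCases j ?_ fun a => ?_
      · rw [div_mul_cancel₀ _ hj']
      · have h2 : f i x (j.succAbove a) - p (j.succAbove a) / p j * f i x j = 0 :=
          congrFun (hA i x h) a
        rw [sub_eq_zero.1 h2]
        ring
    by_cases h3 : f i x j = 0
    · funext a
      rw [h1 a, h3, zero_div, zero_mul]
      rfl
    · refine absurd (funext fun a => ?_) (hp' i (p j / f i x j) x)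
      rw [Pi.smul_apply, smul_eq_mul, h1 a]
      field_simp

theorem proj' (hE : finrank ℝ E + 2 ≤ 2 * k) {J : Type} [Finite J] (f : ι → E → J → ℂ)
    (hf : ∀ i a, ContDiff ℝ 1 fun x => f i x a) :
    ∃ A : (J → ℂ) →L[ℂ] (Fin k → ℂ), ∀ i x, A (f i x) = 0 → f i x = 0 := by
  obtain ⟨n, ⟨e⟩⟩ := Finite.exists_equiv_fin J
  let T : (J → ℂ) →L[ℂ] (Fin (k + n) → ℂ) := ContinuousLinearMap.pi fun a =>
    Fin.addCases (fun _ => 0) (fun b => ContinuousLinearMap.proj (e.symm b)) a
  have h1 : ∀ w a, T w (Fin.castAdd n a) = 0 := fun w a => by simp [T]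
  have h2 : ∀ w b, T w (Fin.natAdd k b) = w (e.symm b) := fun w b => by simp [T]
  obtain ⟨A, hA⟩ := proj hE n (fun i x => T (f i x)) fun i => contDiff_pi.2 fun a => by
    refine Fin.addCases (fun a => ?_) (fun b => ?_) a
    · simp only [h1]
      exact contDiff_const
    · simp only [h2]
      exact hf i _
  refine ⟨A.comp T, fun i x h => funext fun a => ?_⟩
  have h3 := congrFun (hA i x h) (Fin.natAdd k (e a))
  rwa [h2, e.symm_apply_apply] at h3

end proj

variable {m : ℕ}

/-- the real coordinates of a matrix -/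
def co (P : Matrix (Fin (m + 1)) (Fin (m + 1)) ℂ) (s : Fin (m + 1) × Fin (m + 1) × Bool) : ℂ :=
  ((if s.2.2 then (P s.1 s.2.1).re else (P s.1 s.2.1).im : ℝ) : ℂ)

theorem co_im (P : Matrix (Fin (m + 1)) (Fin (m + 1)) ℂ) (s) : (co P s).im = 0 :=
  Complex.ofReal_im _

theorem co_inj {P Q : Matrix (Fin (m + 1)) (Fin (m + 1)) ℂ} (h : co P = co Q) : P = Q := by
  ext a b
  exact Complex.ext (Complex.ofReal_injective (congrFun h (a, b, true)))
    (Complex.ofReal_injective (congrFun h (a, b, false)))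

theorem co_cont (s : Fin (m + 1) × Fin (m + 1) × Bool) :
    Continuous fun P : CPm m => co P.P s := by
  obtain ⟨a, b, t⟩ := s
  have h : Continuous fun P : CPm m => P.P a b := Gr.continuous_P.matrix_elem a b
  cases t
  · exact Complex.continuous_ofReal.comp (Complex.continuous_im.comp h)
  · exact Complex.continuous_ofReal.comp (Complex.continuous_re.comp h)

/-- the vector of the chart -/
def vec (i : Fin (m + 1)) (x : Fin m → ℂ) : Fin (m + 1) → ℂ := Fin.insertNth i 1 x

/-- the charts of the projective space -/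
noncomputable def ch (i : Fin (m + 1)) (x : Fin m → ℂ) : Matrix (Fin (m + 1)) (Fin (m + 1)) ℂ :=
  fun a b => vec i x a * star (vec i x b) * (∑ c, star (vec i x c) * vec i x c)⁻¹

theorem vec_diff (i a : Fin (m + 1)) : ContDiff ℝ 1 fun x : Fin m → ℂ => vec i x a := by
  refine Fin.succAboveCases i ?_ (fun a => ?_) a
  · simp only [vec, Fin.insertNth_apply_same]
    exact contDiff_const
  · simp only [vec, Fin.insertNth_apply_succAbove]
    exact contDiff_apply ℝ ℂ a

theorem ch_diff (i : Fin (m + 1)) (s : Fin (m + 1) × Fin (m + 1) × Bool) :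
    ContDiff ℝ 1 fun x : Fin m → ℂ => co (ch i x) s := by
  obtain ⟨a, b, t⟩ := s
  have h1 : ∀ c, ContDiff ℝ 1 fun x : Fin m → ℂ => star (vec i x c) := fun c =>
    Complex.conjCLE.contDiff.comp (vec_diff i c)
  have h : ContDiff ℝ 1 fun x : Fin m → ℂ => ch i x a b := by
    refine ((vec_diff i a).mul (h1 b)).mul (ContDiff.inv
      (ContDiff.sum fun c _ => (h1 c).mul (vec_diff i c)) fun x h0 => ?_)
    have h2 : ((nsq (vec i x) : ℝ) : ℂ) = 0 := (nsq_eq_dotProduct _).trans h0
    have h3 := congrFun (nsq_eq_zero.1 (Complex.ofReal_eq_zero.1 h2)) i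
    rw [vec, Fin.insertNth_apply_same] at h3
    exact one_ne_zero h3
  cases t
  · exact Complex.ofRealCLM.contDiff.comp (Complex.imCLM.contDiff.comp h)
  · exact Complex.ofRealCLM.contDiff.comp (Complex.reCLM.contDiff.comp h)

theorem exists_ch (P : CPm m) : ∃ i x, P.P = ch i x := by
  obtain ⟨y, h1, -, h2⟩ := P.isProj.exists_lineP
  have h3 : y ≠ 0 := fun h => by
    rw [nsq_eq_zero.2 h] at h1
    exact zero_ne_one h1
  obtain ⟨i, hi⟩ := Function.ne_iff.1 h3
  have hi' : y i ≠ 0 := hi
  have h4 : ∀ a, vec i (fun j => y (i.succAbove j) / y i) a = y a / y i := by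
    refine Fin.succAboveCases i ?_ fun a => ?_
    · rw [vec, Fin.insertNth_apply_same, div_self hi']
    · rw [vec, Fin.insertNth_apply_succAbove]
  have h5 : ∑ c, star (y c) * y c = 1 := star_dotProduct_self h1
  have h6 : star (y i) ≠ 0 := star_ne_zero.2 hi'
  refine ⟨i, fun j => y (i.succAbove j) / y i, ?_⟩
  ext a b
  have h7 : ∑ c, star (y c / y i) * (y c / y i) = (star (y i) * y i)⁻¹ := by
    rw [← one_mul (star (y i) * y i)⁻¹, ← h5, Finset.sum_mul]
    refine Finset.sum_congr rfl fun c _ => ?_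
    rw [star_div₀]
    field_simp
  simp only [h2, ch, h4, h7, lineP_apply]
  rw [star_div₀]
  field_simp

theorem real_eq {z x y w : ℂ} (hz : z ^ 2 + z + 1 = 0) (hx : x.im = 0) (hy : y.im = 0)
    (hw : w.im = 0) (h : x + z ^ 2 * y + z * w = 0) : x = y ∧ y = w := by
  have h1 : (x - y) + z * (w - y) = 0 := by linear_combination h - y * hz
  have h2 : z.im ≠ 0 := fun h0 => by
    have h3 := congrArg Complex.re hz
    simp only [sq, Complex.add_re, Complex.mul_re, h0, Complex.one_re, Complex.zero_re] at h3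
    nlinarith [sq_nonneg (z.re + 1 / 2)]
  have h4 := congrArg Complex.im h1
  simp only [Complex.add_im, Complex.sub_im, Complex.mul_im, hx, hy, hw, Complex.zero_im, sub_self,
    mul_zero, zero_add, Complex.sub_re] at h4
  have h5 : w = y := Complex.ext (sub_eq_zero.1 ((mul_eq_zero.1 h4).resolve_left h2))
    (hw.trans hy.symm)
  rw [h5, sub_self, mul_zero, add_zero, sub_eq_zero] at h1
  exact ⟨h1, h5.symm⟩

end SigH

open SigH in
/-- **SIG** -/
theorem sig (m : ℕ) : SIG m := by
  intro z hz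
  obtain ⟨A, hA⟩ := proj' (k := 3 * m + 1) (ι := Fin (m + 1) × Fin (m + 1) × Fin (m + 1))
    (E := (Fin m → ℂ) × (Fin m → ℂ) × (Fin m → ℂ))
    (by
      rw [finrank_prod, finrank_prod, finrank_pi_fintype, Finset.sum_const,
        Complex.finrank_real_complex, Finset.card_univ, Fintype.card_fin, smul_eq_mul]
      omega)
    (fun i x s => co (ch i.1 x.1) s + z ^ 2 * co (ch i.2.1 x.2.1) s + z * co (ch i.2.2 x.2.2) s)
    fun i s => (((ch_diff i.1 s).comp contDiff_fst).add (contDiff_const.mul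
      ((ch_diff i.2.1 s).comp (contDiff_fst.comp contDiff_snd)))).add (contDiff_const.mul
      ((ch_diff i.2.2 s).comp (contDiff_snd.comp contDiff_snd)))
  refine ⟨fun q => A fun s => co q.1.P s + z ^ 2 * co q.2.1.P s + z * co q.2.2.P s,
    A.continuous.comp (continuous_pi fun s => (((co_cont s).comp continuous_fst).add
      (continuous_const.mul ((co_cont s).comp (continuous_fst.comp continuous_snd)))).add
      (continuous_const.mul ((co_cont s).comp (continuous_snd.comp continuous_snd)))),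
    fun a b c => ?_, fun a b c h => ?_⟩
  · rw [← map_smul]
    refine congrArg A (funext fun s => ?_)
    rw [Pi.smul_apply, smul_eq_mul]
    linear_combination (1 - z) * co b.P s * hz
  · obtain ⟨i, x, hx⟩ := exists_ch a
    obtain ⟨j, y, hy⟩ := exists_ch b
    obtain ⟨l, w, hw⟩ := exists_ch c
    have h1 := hA (i, j, l) (x, y, w) (by simpa only [hx, hy, hw] using h)
    have h2 := fun s => real_eq hz (co_im _ s) (co_im _ s) (co_im _ s) (congrFun h1 s)
    exact ⟨Gr.ext (by rw [hx, hy]; exact co_inj (funext fun s => (h2 s).1)),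
      Gr.ext (by rw [hy, hw]; exact co_inj (funext fun s => (h2 s).2))⟩

end Vale.Agent.P236Z.Nb
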