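import Vale.Agent.P236Z.SS.Tow
import Vale.Agent.P236Z.Nb.Hep
import Vale.Agent.P236Z.Nb.Sig
import Vale.Agent.P251.G.Gauge
import Vale.Agent.P251.G.Glue

/-!
# P236, block NB: a power of the Euler class vanishes outside of the diagonal
-/

open CategoryTheory MonoidalCategory Limits Pretriangulated Topology
open Functor.LaxMonoidal Functor.OplaxMonoidal
open Vale.Agent.P251 Vale.Agent.P251.T Vale.Agent.P251.M Vale.Agent.P251.I Vale.Agent.P251.G
  Vale.Agent.P236Z.Cat Vale.Agent.P251.G.LC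

noncomputable section

namespace Vale.Agent.P236Z.SS

namespace Kill

section Mon

variable {C D : Type 1} [Category.{0} C] [MonoidalCategory C] [Category.{0} D]
  [MonoidalCategory D]

theorem act_nat {L Y Y' : C} (a : 𝟙_ C ⟶ L) (M : ℕ) (f : Y ⟶ Y') :
    f ≫ act a M Y' = act a M Y ≫ Pw L M ◁ f := by
  rw [act, act, leftUnitor_inv_naturality_assoc, whisker_exchange, Category.assoc]

variable (J : C ⥤ D) [J.Monoidal] {L : C} (a : 𝟙_ C ⟶ L)

theorem exists_pw : ∀ M : ℕ, ∃ ψ : Pw (J.obj L) M ≅ J.obj (Pw L M),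
    apw (ε J ≫ J.map a) M ≫ ψ.hom = ε J ≫ J.map (apw a M)
  | 0 => ⟨Functor.Monoidal.εIso J, (Category.id_comp _).trans
      ((Category.comp_id _).symm.trans (congrArg (ε J ≫ ·) (J.map_id _).symm))⟩
  | M + 1 => by
    obtain ⟨ψ, h⟩ := exists_pw M
    refine ⟨whiskerLeftIso (J.obj L) ψ ≪≫ Functor.Monoidal.μIso J L (Pw L M), ?_⟩
    change (apw (ε J ≫ J.map a) M ≫ (λ_ _).inv ≫ (ε J ≫ J.map a) ▷ Pw (J.obj L) M) ≫
      J.obj L ◁ ψ.hom ≫ μ J L (Pw L M) = ε J ≫ J.map (apw a M ≫ (λ_ _).inv ≫ a ▷ Pw L M)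
    rw [Category.assoc, Category.assoc, ← whisker_exchange_assoc,
      ← leftUnitor_inv_naturality_assoc, reassoc_of% h, comp_whiskerRight, Category.assoc,
      μ_natural_left, J.map_comp, J.map_comp, left_unitality_inv_assoc]

theorem act_map [HasZeroMorphisms D] (M : ℕ) (A : C) (h : J.map (act a M A) = 0) :
    act (ε J ≫ J.map a) M (J.obj A) = 0 := by
  obtain ⟨ψ, hψ⟩ := exists_pw J a M
  rw [← cancel_mono (ψ.hom ▷ J.obj A ≫ μ J _ _), zero_comp, ← h, act, act, Category.assoc,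
    ← comp_whiskerRight_assoc, hψ, comp_whiskerRight, Category.assoc, μ_natural_left, J.map_comp,
    left_unitality_inv_assoc]

end Mon

/-- the closed half line -/
abbrev HHF : FCat := ⟨HH, FC.of_contr contr_HH⟩

theorem isZero_HH {T₀ : TTC} {F : SpaceFunctor T₀.C} {T : TTC} {K : Type 1} [Category.{0} K]
    [MonoidalCategory K] [SymmetricCategory K] {tK : Tw K} {u : K ⥤ FCat} {v : FCat ⥤ K}
    [v.Braided] (L : Lvl T₀ F T tK u v) (A : K) : IsZero (L.J.obj (A ⊗ v.obj HHF)) := by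
  have h0 : IsZero (F.S.obj HHF) := by
    have h1 := F.isZero (X := FCat.mk FC.empty) (inferInstanceAs (IsEmpty Empty))
    rw [IsZero.iff_id_eq_zero, ← F.S.map_id, F.map_eq (𝟙 HHF)
      (FCat.hom (Y := FCat.mk FC.empty) 0 ≫ FCat.hom 0) (contr_HH.trans (.of_eq zero_comp.symm)),
      F.S.map_comp, h1.eq_of_src (F.S.map _) 0, comp_zero]
  have h1 : IsZero (L.J.obj (v.obj HHF)) := (L.tv.F.map_isZero h0).of_iso (L.Jtv.app HHF)
  exact ((tensorLeft (L.J.obj A)).map_isZero h1).of_iso (Functor.Monoidal.μIso L.J _ _).symm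

theorem z3_root : ((z3 : ℂ) ^ 2) ^ 2 + (z3 : ℂ) ^ 2 + 1 = 0 ∧ (z3 : ℂ) ^ 3 = 1 := by
  have h3 : (z3 : ℂ) ^ 3 = 1 := by
    rw [pow_three', ← Circle.coe_mul, ← Circle.coe_mul, z3_cube, Circle.coe_one]
  have h1 : (z3 : ℂ) - 1 ≠ 0 := by
    rw [sub_ne_zero, ← Circle.coe_one, Ne, Circle.coe_inj, z3, z9, ← Circle.exp_add,
      ← Circle.exp_add, Circle.exp_eq_one]
    rintro ⟨n, hn⟩
    have h2 : ((3 * n : ℤ) : ℝ) = (1 : ℤ) := by
      apply mul_right_cancel₀ Real.pi_ne_zero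
      push_cast
      linarith
    have := Int.cast_injective h2
    omega
  refine ⟨mul_left_cancel₀ h1 ?_, h3⟩
  linear_combination ((z3 : ℂ) ^ 2 - z3 + 1) * h3

/-- the plane with the rotation -/
abbrev P1 : K1 := Pl (𝟭 FCat) hv0

/-- the coordinates on the powers of the plane -/
def toP : ∀ M : ℕ, (Fin M → ℂ) → (Pw P1 M).obj.obj
  | 0, _ => ()
  | M + 1, x => (x 0, toP M (Fin.tail x))

/-- the inverse coordinates -/
def ofP : ∀ M : ℕ, (Pw P1 M).obj.obj → Fin M → ℂ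
  | 0, _ => 0
  | M + 1, p => Fin.cons (p.1 : ℂ) (ofP M p.2)

theorem cont_toP : ∀ M : ℕ, Continuous (toP M)
  | 0 => continuous_const
  | M + 1 => (continuous_apply 0).prodMk ((cont_toP M).comp continuous_id.finTail)

theorem cont_ofP : ∀ M : ℕ, Continuous (ofP M)
  | 0 => continuous_const
  | M + 1 => Continuous.finCons (A := fun _ => ℂ) continuous_fst ((cont_ofP M).comp continuous_snd)

theorem ofP_toP : ∀ (M : ℕ) (x : Fin M → ℂ), ofP M (toP M x) = x
  | 0, _ => Subsingleton.elim _ _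
  | M + 1, x => (congrArg (Fin.cons (α := fun _ => ℂ) (x 0)) (ofP_toP M _)).trans
      (Fin.cons_self_tail x)

theorem apw_toP : ∀ M : ℕ, app (apw (org (𝟭 FCat) hv0) M).hom.hom
    ((() : Unit) : OnePoint Unit) = (toP M 0 : OnePoint _)
  | 0 => rfl
  | M + 1 => congrArg (app ((λ_ _).inv ≫ org (𝟭 FCat) hv0 ▷ Pw P1 M).hom.hom) (apw_toP M)

theorem γ_toP : ∀ (M : ℕ) (x : Fin M → ℂ),
    app (Pw P1 M).γ.hom (toP M x : OnePoint _) = (toP M ((z3 : ℂ) • x) : OnePoint _)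
  | 0, _ => rfl
  | M + 1, x => congrArg (smash (((z3 : ℂ) * x 0 : ℂ) : OnePoint ℂ)) (γ_toP M (Fin.tail x))

/-- A power of the Euler class vanishes if there is an equivariant map without zeros. -/
theorem act_zero (W : Tower) (A : K1) (M : ℕ) (g : A.obj.obj → A.obj.obj)
    (hg : ∀ u : A.obj.obj, app A.γ.hom (u : OnePoint _) = (g u : OnePoint _))
    (σ : A.obj.obj → Fin M → ℂ) (hc : Continuous σ) (h0 : ∀ u, σ u ≠ 0)
    (he : ∀ u, σ (g u) = (z3 : ℂ) • σ u) : act W.s₁.ar M (W.L₁.J.obj A) = 0 := by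
  have hr : IsClosedEmbedding fun q : A.obj.obj × NNReal =>
      ((toP M ((q.2 : ℝ) • σ q.1), q.1) : (Pw P1 M).obj.obj × A.obj.obj) := by
    refine Function.LeftInverse.isClosedEmbedding
      (f := fun p => (p.2, Real.toNNReal (‖ofP M p.1‖ / ‖σ p.2‖))) (fun q => ?_) ?_ ?_
    · refine Prod.ext rfl ?_
      change Real.toNNReal (‖ofP M (toP M _)‖ / ‖σ q.1‖) = q.2
      rw [ofP_toP, norm_smul, mul_div_cancel_right₀ _ (norm_ne_zero_iff.2 (h0 _)), NNReal.norm_eq,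
        Real.toNNReal_coe]
    · exact continuous_snd.prodMk (continuous_real_toNNReal.comp
        (((cont_ofP M).comp continuous_fst).norm.div (hc.comp continuous_snd).norm
          fun p => norm_ne_zero_iff.2 (h0 _)))
    · exact ((cont_toP M).comp ((NNReal.continuous_coe.comp continuous_snd).smul
        (hc.comp continuous_fst))).prodMk continuous_fst
  let r : A ⊗ v1.obj HHF ⟶ Pw P1 M ⊗ A :=
    Rt.homMk (FCat.hom (ofClosed (X := A.obj.obj ⊗ HH) (Y := (Pw P1 M).obj.obj ⊗ A.obj.obj) _ hr))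
      (ObjectProperty.hom_ext _ (hom_ext fun q => by
        change app (ofClosed (X := A.obj.obj ⊗ HH) (Y := (Pw P1 M).obj.obj ⊗ A.obj.obj) _ hr)
          (smash (app A.γ.hom (q.1 : OnePoint _)) (OnePoint.some (q.2 : NNReal))) =
          smash (app (Pw P1 M).γ.hom (toP M _ : OnePoint _)) (app A.γ.hom (q.1 : OnePoint _))
        rw [hg, γ_toP, smul_comm, ← he]
        rfl))
  let i : A ⟶ A ⊗ v1.obj HHF := (ρ_ A).inv ≫ A ◁ (ε v1 ≫ v1.map (FCat.hom (point (X := HH) 0)))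
  have e : act (org (𝟭 FCat) hv0) M A = i ≫ r := by
    refine Rt.hom_ext (ObjectProperty.hom_ext _ (hom_ext fun q => ?_))
    change smash (app (apw (org (𝟭 FCat) hv0) M).hom.hom ((() : Unit) : OnePoint Unit))
      (OnePoint.some q) = smash (toP M (((0 : NNReal) : ℝ) • σ q) : OnePoint _) (OnePoint.some q)
    rw [apw_toP, NNReal.coe_zero, zero_smul]
  refine act_map W.L₁.J _ M A ?_
  rw [e, Functor.map_comp, (isZero_HH W.L₁ A).eq_of_src (W.L₁.J.map r) 0, comp_zero]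

end Kill

open Kill in
/-- (KILL) -/
theorem kill (W : Tower) : KILL W := by
  intro k Y z hz
  let D := dgK (𝟭 FCat) hv0 (CPF k)
  have hD : ∀ a : Nb.CPm k, app D.hom.hom (OnePoint.some a) =
    OnePoint.some ((a, a, a) : Nb.CPm k × Nb.CPm k × Nb.CPm k) := fun _ => rfl
  have hce : IsClosedEmbedding fun a : Nb.CPm k => ((a, a, a) : Nb.CPm k × Nb.CPm k × Nb.CPm k) :=
    (continuous_id.prodMk (continuous_id.prodMk continuous_id)).isClosedEmbedding
      fun _ _ h => congrArg Prod.fst h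
  have e : D.hom.hom = ofClosed (X := LC.of (Nb.CPm k))
    (Y := LC.of (Nb.CPm k × Nb.CPm k × Nb.CPm k)) _ hce := hom_ext hD
  have hcof : Cofib D.hom.hom := by
    rw [e]
    refine cofib_ofClosed _ hce ((congrArg (PNDR _) (Set.ext fun p => ?_)).mp (Nb.hep k))
    exact ⟨fun h => ⟨p.1, Prod.ext rfl (Prod.ext h.1 (h.1.trans h.2))⟩,
      fun ⟨a, h⟩ => h ▸ ⟨rfl, rfl⟩⟩
  let B := (Rt.N (Tw.id FCat)).obj (CPF k)
  have hγ : D.hom.hom ≫ B.γ.hom ≫ cofMap D.hom.hom = 0 := by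
    have h1 : D.hom.hom ≫ B.γ.hom = D.hom.hom := hom_ext fun _ => rfl
    rw [reassoc_of% h1, comp_cofMap]
  have h3 : B.γ.hom ≫ B.γ.hom ≫ B.γ.hom = 𝟙 _ := congrArg (·.hom) B.cube
  let A : K1 := ⟨⟨cof D.hom.hom, FC.cof hcof (CPF k).property B.obj.property⟩,
    FCat.hom (cofDesc _ _ hγ), ObjectProperty.hom_ext _ (by
      change cofDesc _ _ hγ ≫ cofDesc _ _ hγ ≫ cofDesc _ _ hγ = 𝟙 _
      rw [← cancel_epi (cofMap D.hom.hom), cofMap_cofDesc_assoc, Category.assoc,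
        cofMap_cofDesc_assoc, Category.assoc, cofMap_cofDesc, reassoc_of% h3, Category.comp_id])⟩
  let q : B ⟶ A := Rt.homMk (FCat.hom (cofMap D.hom.hom))
    (ObjectProperty.hom_ext _ (cofMap_cofDesc _ _ hγ).symm)
  have hq : IsCof (Rt.U _ ⋙ 𝟭 _) D q := ⟨hcof, isPushout_cofMap _⟩
  obtain ⟨σ, hc, he, h0⟩ := Nb.sig k _ z3_root.1
  have hm : ∀ p : Nb.CPm k × Nb.CPm k × Nb.CPm k, p ∈ cofSet D.hom.hom →
      ¬ (p.1 = p.2.1 ∧ p.2.1 = p.2.2) := fun p hp h =>
    hp ⟨OnePoint.some p.1, (hD _).trans (congrArg OnePoint.some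
      (show (p.1, p.1, p.1) = p from Prod.ext rfl (Prod.ext h.1 (h.1.trans h.2))))⟩
  have hm' : ∀ p : Nb.CPm k × Nb.CPm k × Nb.CPm k, p ∈ cofSet D.hom.hom →
      (p.2.2, p.1, p.2.1) ∈ cofSet D.hom.hom := by
    intro p hp h
    rw [e] at h
    obtain ⟨a, h⟩ := coe_mem_ptd.1 ((range_ofClosed (C := LC.of (Nb.CPm k))
      (D := LC.of (Nb.CPm k × Nb.CPm k × Nb.CPm k)) _ hce).subset h)
    have h1 : a = p.2.2 := congrArg (·.1) h
    have h2 : a = p.1 := congrArg (·.2.1) h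
    have h3 : a = p.2.1 := congrArg (·.2.2) h
    exact hm p hp ⟨h2.symm.trans h3, h3.symm.trans h1⟩
  have hA := act_zero W A (3 * k + 1) (fun u => ⟨_, hm' u.1 u.2⟩)
    (fun u => app_cofMap_coe D.hom.hom ⟨_, hm' u.1 u.2⟩) (fun u => σ u.1)
    (hc.comp continuous_subtype_val) (fun u h => hm u.1 u.2 (h0 _ _ _ h)) (fun u => by
      change σ (u.1.2.2, u.1.1, u.1.2.1) = (z3 : ℂ) • σ (u.1.1, u.1.2.1, u.1.2.2)
      rw [he u.1.2.1, he u.1.1, smul_smul, ← pow_add, pow_succ, z3_root.2, one_mul])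
  rw [Step.dg, Category.assoc, Category.assoc, Category.assoc, Preadditive.IsIso.comp_left_eq_zero]
    at hz
  obtain ⟨z', hz'⟩ := H.Dist.desc₂ (W.L₁.dist hq) _ hz
  have h4 := congrArg (· ≫ act W.s₁.ar (3 * k + 1) Y) hz'
  simp only [Category.assoc] at h4
  rw [act_nat _ _ z', hA, zero_comp, comp_zero, eq_comm, Preadditive.IsIso.comp_left_eq_zero,
    Preadditive.IsIso.comp_left_eq_zero] at h4
  exact h4

end Vale.Agent.P236Z.SS
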