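import Vale.Agent.P236Z.SS.Tow
import Vale.Agent.P236Z.Cat.Nm
import Vale.Agent.P236Z.Cat.Proj
import Vale.Agent.P236Z.Top.Unit
import Vale.Agent.P251.M.EvenPer

/-!
# P236, block NB: the norm map to `X₁`, Euler classes, trivial actions
-/

open CategoryTheory MonoidalCategory Limits Pretriangulated
open Functor.LaxMonoidal Functor.OplaxMonoidal
open Vale.Agent.P251 Vale.Agent.P251.T Vale.Agent.P251.M Vale.Agent.P251.I Vale.Agent.P251.G
  Vale.Agent.P251.S Vale.Agent.P236Z.Cat Vale.Agent.P236Z.Mod Vale.Agent.P236Z.Top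
open scoped CategoryTheory.Obj

noncomputable section

namespace Vale.Agent.P236Z.SS

section Act

variable {T : Type 1} [Category.{0} T] [MonoidalCategory T] {L : T} (a : 𝟙_ T ⟶ L) (M : ℕ)

@[reassoc]
theorem act_nat {X Y : T} (f : X ⟶ Y) : f ≫ act a M Y = act a M X ≫ Pw L M ◁ f := by
  rw [act, act, leftUnitor_inv_naturality_assoc, Category.assoc, whisker_exchange]

theorem act_tensor (X Y : T) : act a M (X ⊗ Y) = act a M X ▷ Y ≫ (α_ _ _ _).hom := by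
  rw [act, act, comp_whiskerRight, Category.assoc, associator_naturality_left]
  monoidal

theorem act_zero (Y : T) : act a 0 Y = (λ_ Y).inv := by
  change (λ_ Y).inv ≫ 𝟙 (𝟙_ T) ▷ Y = _
  simp

theorem act_succ (Y : T) : act a (M + 1) Y =
    act a M Y ≫ (λ_ _).inv ≫ a ▷ (Pw L M ⊗ Y) ≫ (α_ L (Pw L M) Y).inv := by
  change (λ_ Y).inv ≫ (apw a M ≫ (λ_ _).inv ≫ a ▷ Pw L M) ▷ Y = _
  rw [act, comp_whiskerRight, comp_whiskerRight, Category.assoc, associator_inv_naturality_left]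
  monoidal

variable [SymmetricCategory T]

/-- the exchange of the first two factors -/
def exch (V P Y : T) : V ⊗ P ⊗ Y ≅ P ⊗ V ⊗ Y :=
  (α_ V P Y).symm ≪≫ whiskerRightIso (β_ V P) Y ≪≫ α_ P V Y

theorem act_right (V Y : T) : act a M (V ⊗ Y) = V ◁ act a M Y ≫ (exch V (Pw L M) Y).hom := by
  simp only [exch, act, Iso.trans_hom, Iso.symm_hom, whiskerRightIso_hom,
    MonoidalCategory.whiskerLeft_comp, Category.assoc]
  rw [associator_inv_naturality_middle_assoc, ← comp_whiskerRight_assoc,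
    BraidedCategory.braiding_naturality_right, comp_whiskerRight_assoc,
    associator_naturality_left]
  simp

variable [Preadditive T] [MonoidalPreadditive T]

theorem act_cancel (V : T) [IsInv V] {X Y : T} (f : X ⟶ Y) :
    V ◁ f ≫ act a M (V ⊗ Y) = 0 ↔ f ≫ act a M Y = 0 := by
  rw [act_right, ← MonoidalCategory.whiskerLeft_comp_assoc, Preadditive.IsIso.comp_right_eq_zero]
  refine ⟨fun h => whiskerLeft_inj V ?_, fun h => ?_⟩
  · rw [h, MonoidalPreadditive.whiskerLeft_zero]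
  · rw [h, MonoidalPreadditive.whiskerLeft_zero]

omit [SymmetricCategory T] in
theorem act_tensor_zero {X X' Y Y' : T} {f : X ⟶ Y} (h : f ≫ act a M Y = 0) (g : X' ⟶ Y') :
    (f ⊗ₘ g) ≫ act a M (Y ⊗ Y') = 0 := by
  rw [act_tensor, ← tensorHom_id, tensorHom_comp_tensorHom_assoc, h,
    MonoidalPreadditive.zero_tensor, zero_comp]

omit [SymmetricCategory T] [MonoidalPreadditive T] in
theorem act_comp_zero {X Y Z : T} {f : X ⟶ Y} (h : f ≫ act a M Y = 0) (g : Y ⟶ Z) :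
    (f ≫ g) ≫ act a M Z = 0 := by
  rw [Category.assoc, act_nat, reassoc_of% h, zero_comp]

end Act

section Triv

variable {D : Type 1} [Category.{0} D] [MonoidalCategory D] (t : Tw D)

/-- the central automorphism is trivial on `X` -/
def Triv (X : D) : Prop := (t.h X).hom = 𝟙 X

variable {t}

theorem Triv.of_iso {X Y : D} (h : Triv t X) (e : X ≅ Y) : Triv t Y := by
  rw [Triv, ← cancel_epi e.hom, t.nat, h, Category.id_comp, Category.comp_id]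

theorem Triv.unit : Triv t (𝟙_ D) := t.one

theorem Triv.tensor {X Y : D} (h : Triv t X) (h' : Triv t Y) : Triv t (X ⊗ Y) := by
  rw [Triv, t.ten, h, h', id_tensorHom_id]

theorem Triv.cancel {X Y : D} [IsInv X] (h : Triv t X) (h' : Triv t (X ⊗ Y)) : Triv t Y := by
  rw [Triv, t.ten, h, id_tensorHom] at h'
  exact whiskerLeft_inj X (h'.trans (MonoidalCategory.whiskerLeft_id X Y).symm)

theorem Triv.ten_right {X : D} (h : Triv t X) (Y : D) : (t.h (X ⊗ Y)).hom = X ◁ (t.h Y).hom := by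
  rw [t.ten, h, id_tensorHom]

end Triv

theorem isInv_map {C D : Type 1} [Category.{0} C] [MonoidalCategory C] [SymmetricCategory C]
    [Category.{0} D] [MonoidalCategory D] [SymmetricCategory D] (F : C ⥤ D) [F.Monoidal] (X : C)
    [IsInv X] : IsInv (F.obj X) :=
  IsInv.of_inverse (L' := F.obj ((tensorLeft X).objPreimage (𝟙_ C)))
    (Functor.Monoidal.μIso F _ _ ≪≫ F.mapIso ((tensorLeft X).objObjPreimageIso (𝟙_ C)) ≪≫
      (Functor.Monoidal.εIso F).symm)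

/-- cancellation of an invertible factor -/
def cancelIso {D : Type 1} [Category.{0} D] [MonoidalCategory D] (V : D) [IsInv V] {X Y : D}
    (e : V ⊗ X ≅ V ⊗ Y) : X ≅ Y := (tensorLeft V).preimageIso e

variable {W : Tower}

/-- automorphisms of spheres -/
theorem aut_sign (V : W.T₀.C) [IsInv V] (f : V ⟶ V) [IsIso f] : ∃ e, Sg e ∧ f = e • 𝟙 V := by
  have key : ∀ g : V ⟶ V, ∃ m : ℤ, g = m • 𝟙 V := fun g => by
    obtain ⟨k, hk⟩ := whiskerLeft_surj V ((ρ_ V).hom ≫ g ≫ (ρ_ V).inv)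
    obtain ⟨m, rfl⟩ := exists_int_unit W.F k
    refine ⟨m, ?_⟩
    have h1 : V ◁ (m • 𝟙 (𝟙_ W.T₀.C)) = m • 𝟙 _ := by
      rw [← MonoidalCategory.whiskerLeft_id]
      exact (tensorLeft V).map_zsmul
    rw [← cancel_epi (ρ_ V).hom, ← cancel_mono (ρ_ V).inv, Category.assoc, ← hk, h1]
    simp
  obtain ⟨m, hm⟩ := key f
  obtain ⟨m', hm'⟩ := key (inv f)
  have h1 : (m * m' - 1) • 𝟙 V = 0 := by
    have := IsIso.hom_inv_id f
    rw [hm', Preadditive.comp_zsmul, Category.comp_id] at this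
    rw [sub_smul, one_smul, mul_comm, mul_smul, ← hm, this, sub_self]
  have h2 : (m * m' - 1) • 𝟙 (𝟙_ W.T₀.C) = 0 := by
    refine whiskerLeft_inj V ?_
    have h3 : V ◁ ((m * m' - 1) • 𝟙 (𝟙_ W.T₀.C)) = (m * m' - 1) • V ◁ 𝟙 _ :=
      (tensorLeft V).map_zsmul
    rw [h3, MonoidalPreadditive.whiskerLeft_zero, MonoidalCategory.whiskerLeft_id,
      ← cancel_mono (ρ_ V).hom, Preadditive.zsmul_comp, Category.id_comp, zero_comp,
      ← Category.comp_id (ρ_ V).hom, ← Preadditive.comp_zsmul, h1, comp_zero]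
  have h3 := sub_eq_zero.1 (eq_zero_of_zsmul_id W.F _ h2)
  exact ⟨m, Int.eq_one_or_neg_one_of_mul_eq_one h3, hm⟩

theorem triv_tv (X : W.T₀.C) : Triv W.L₁.t (W.L₁.tv.F.obj X) := W.L₁.tv_h X

theorem triv_Lr (G : W.Geo) : Triv W.L₁.t W.s₁.Lr := by
  refine Triv.of_iso ?_ W.UL
  rw [Triv, ← W.s₂.γ_cube, G.c9.2.1, Category.comp_id, Category.comp_id]

theorem triv_NC (G : W.Geo) : Triv W.L₁.t (W.s₁.N.obj (W.F.S.obj CCF)) := by
  obtain ⟨ω, -⟩ := G.p1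
  exact ((triv_tv _).tensor ((triv_Lr G).tensor (triv_Lr G))).of_iso ω.symm

variable (x : Mdl W)

include x in
theorem isInv_C : IsInv (W.F.S.obj CCF) := IsInv.of_iso x.e.symm

include x in
theorem triv_NS (G : W.Geo) (n : ℤ) : Triv W.L₁.t (W.s₁.N.obj ((Λ W).S n)) := by
  have h1 : Triv W.L₁.t (W.s₁.N.obj ((Λ W).S 1)) :=
    (triv_NC G).of_iso (W.s₁.N.mapIso (x.e ≪≫ (Λ W).oneIso.symm))
  have := isInv_map W.s₁.N ((Λ W).S 1)
  have e : ∀ m n : ℤ, 1 + m = n →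
      (W.s₁.N.obj ((Λ W).S 1) ⊗ W.s₁.N.obj ((Λ W).S m) ≅ W.s₁.N.obj ((Λ W).S n)) :=
    fun m n h => Functor.Monoidal.μIso _ _ _ ≪≫ W.s₁.N.mapIso ((Λ W).mu 1 m n h)
  induction n using Int.induction_on with
  | zero => exact Triv.unit.of_iso (Functor.Monoidal.εIso W.s₁.N)
  | succ i ih => exact (h1.tensor ih).of_iso (e _ _ (by ring))
  | pred i ih => exact h1.cancel (ih.of_iso (e _ _ (by ring)).symm)

instance : IsMonHom (in0 W.s₂ (W.s₁.N.obj x.P.E)) :=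
  haveI : IsMonHom (W.s₂.νIso (W.s₁.N.obj x.P.E)).inv := inferInstance
  inferInstanceAs (IsMonHom (inlM _ _ ≫ (W.s₂.νIso (W.s₁.N.obj x.P.E)).inv))

@[reassoc]
theorem nm₁_mul : (x.nm₁ ⊗ₘ x.nm₁) ≫ x.mul₁ =
    μ W.s₁.N _ _ ≫ W.s₁.N.map MonObj.mul ≫ x.nm₁ := by
  have h := IsMonHom.mul_hom (in0 W.s₂ (W.s₁.N.obj x.P.E))
  rw [Functor.obj.μ_def, Functor.obj.μ_def, Category.assoc] at h
  rw [Mdl.nm₁, Mdl.mul₁, ← tensorHom_comp_tensorHom, Category.assoc, μ_natural_assoc,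
    ← Functor.map_comp, x.Y.ι_mul, Functor.map_comp, reassoc_of% h]

@[reassoc]
theorem nm₁_one : ε W.s₁.N ≫ W.s₁.N.map MonObj.one ≫ x.nm₁ = x.one₁ := by
  have h := IsMonHom.one_hom (in0 W.s₂ (W.s₁.N.obj x.P.E))
  rw [Functor.obj.η_def, Functor.obj.η_def, Category.assoc] at h
  rw [Mdl.nm₁, Mdl.one₁, reassoc_of% h, ← Functor.map_comp, x.Y.ι_one]

@[reassoc]
theorem nm₁_γ : W.s₁.N.map x.P.ρ ≫ x.nm₁ = x.nm₁ ≫ W.s₂.γ x.X := by
  rw [Mdl.nm₁, Category.assoc]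
  exact x.Y.nm₁_conj

@[reassoc]
theorem nm₁_h : W.s₁.N.map (x.P.ρ ≫ x.P.ρ ≫ x.P.ρ) ≫ x.nm₁ = x.nm₁ ≫ (W.L₁.t.h x.X₁).hom := by
  rw [Functor.map_comp, Functor.map_comp, Category.assoc, Category.assoc, nm₁_γ, nm₁_γ_assoc,
    nm₁_γ_assoc, W.s₂.γ_cube]

/-- the underlying class of a norm -/
theorem U_nm₁ {A : W.T₀.C} (u : A ⟶ x.P.E) :
    (U W).map (W.s₁.N.map u ≫ x.nm₁) ≫ x.Y.e.hom = (W.s₁.νIso A).hom ≫
      (u ⊗ₘ (((u ≫ x.P.ρ ≫ x.P.ρ ≫ x.P.ρ) ⊗ₘ ((u ≫ x.P.ρ ≫ x.P.ρ ≫ x.P.ρ) ≫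
        x.P.ρ ≫ x.P.ρ ≫ x.P.ρ)) ≫ MonObj.mul)) ≫ MonObj.mul := by
  have h : (U W).map x.nm₁ ≫ x.Y.e.hom = _ := x.Y.nm₁_res
  rw [Functor.map_comp, Category.assoc, h, W.s₁.ν_nat_assoc, Step.mul3, ← id_tensorHom]
  simp only [tensorHom_comp_tensorHom_assoc, Category.comp_id,
    Category.assoc, Step.νIso, Iso.app_hom]

theorem isU₁_nm₁ {A : W.T₀.C} {u : A ⟶ x.P.E} (h : x.IsU₀ u) :
    x.IsU₁ (W.s₁.N.map u ≫ x.nm₁) := by
  have h3 : ∀ {v : A ⟶ x.P.E}, x.IsU₀ v → x.IsU₀ (v ≫ x.P.ρ ≫ x.P.ρ ≫ x.P.ρ) := fun hv => by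
    simpa only [Category.assoc] using Mdl.IsU₀.aut x (Mdl.IsU₀.aut x (Mdl.IsU₀.aut x hv))
  rw [x.isU₁_iff, U_nm₁, x.isU₀_iso]
  exact Mdl.IsU₀.mul x h (Mdl.IsU₀.mul x (h3 h) (h3 (h3 h)))

end Vale.Agent.P236Z.SS
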