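import Vale.Agent.P236Z.SS.Tow
import Vale.Agent.P236Z.Cat.Add
import Vale.Agent.P236Z.Top.Unit

/-!
# P236, block NB: three is the transfer of one
-/

open CategoryTheory MonoidalCategory Limits Pretriangulated
open Functor.LaxMonoidal Functor.OplaxMonoidal
open Vale.Agent.P251 Vale.Agent.P251.T Vale.Agent.P251.M Vale.Agent.P251.I Vale.Agent.P251.G
  Vale.Agent.P236Z.Cat Vale.Agent.P236Z.Mod Vale.Agent.P236Z.Top

noncomputable section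

namespace Vale.Agent.P236Z.SS

namespace Om

theorem triv_iso {D : Type 1} [Category.{0} D] [MonoidalCategory D] (t : Tw D) {X Y : D}
    (e : X ≅ Y) (h : (t.h Y).hom = 𝟙 _) : (t.h X).hom = 𝟙 _ := by
  rw [← cancel_mono e.hom, ← t.nat, h, Category.comp_id, Category.id_comp]

theorem triv_ten {D : Type 1} [Category.{0} D] [MonoidalCategory D] (t : Tw D) {X Y : D}
    (h : (t.h X).hom = 𝟙 _) (h' : (t.h Y).hom = 𝟙 _) : (t.h (X ⊗ Y)).hom = 𝟙 _ := by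
  rw [t.ten, h, h', id_tensorHom_id]

section Step

variable {T₀ : TTC} {F : I.SpaceFunctor T₀.C} {T T' : TTC} {K : Type 1} [Category.{0} K]
  [MonoidalCategory K] [SymmetricCategory K] {tK : Tw K} {u : K ⥤ I.FCat} {v : I.FCat ⥤ K}
  [v.Braided] {hv : ∀ X, (tK.h (v.obj X)).hom = 𝟙 _} {L : Lvl T₀ F T tK u v}
  {L' : Lvl T₀ F T' (Rt.tw tK) (Rt.U tK ⋙ u) (Rt.triv v hv)} (s : Step L L')

open Step.AddN

@[reassoc]
theorem un_oe : s.un _ ≫ s.U.F.map s.oe = ε s.U.F := (s.adj.homEquiv _ _).apply_symm_apply _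

theorem U_ext {X : T'.C} {Y : T.C} {f g : X ⟶ s.ind.obj Y} (h : s.U.F.map f = s.U.F.map g) :
    f = g := s.coind_ext (by rw [h])

theorem tr_nat {X Y : T'.C} (f : X ⟶ Y) :
    f ≫ s.tr (𝟙 (s.U.F.obj Y)) = s.tr (𝟙 (s.U.F.obj X)) ≫ f := by
  have h1 := s.tr_comp f (𝟙 _) (𝟙 Y)
  have h2 := s.tr_comp (𝟙 X) (𝟙 _) f
  simp only [s.U.F.map_id, Category.id_comp, Category.comp_id] at h1 h2
  rw [← h1, h2]

theorem w_add₃ {A B : T.C} (a b c c' : A ⟶ B) : w s a b (c + c') = w s a b c + w s a b c' := by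
  simp only [w, MonoidalPreadditive.tensor_add, Preadditive.add_comp, Preadditive.comp_add]

theorem w_add₂ {A B : T.C} (a b b' c : A ⟶ B) : w s a (b + b') c = w s a b c + w s a b' c := by
  simp only [w, MonoidalPreadditive.tensor_add, MonoidalPreadditive.add_tensor,
    Preadditive.add_comp, Preadditive.comp_add]

theorem N_add' {A B : T.C} (f g : A ⟶ B) : s.N.map (f + g) = s.N.map f + s.N.map g +
    (s.tr (w s f f g) + s.tr (w s f g g)) := by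
  rw [s.N_add, ← s.tr_add, Preadditive.add_comp, Preadditive.comp_add]
  rfl

theorem N_neg {A B : T.C} (f : A ⟶ B) : s.N.map (-f) = -s.N.map f := by
  have h := N_add' s f (-f)
  rw [← s.tr_add, ← w_add₂, add_neg_cancel, s.N_zero, w, MonoidalPreadditive.zero_tensor,
    MonoidalPreadditive.tensor_zero, zero_comp, comp_zero, s.tr_zero, add_zero] at h
  exact (neg_eq_of_add_eq_zero_right h.symm).symm

/-- the norm of a class of trace zero is killed by three minus the transfer -/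
theorem three {A E : T.C} {X : T'.C} (nm : s.N.obj E ⟶ X) (h : E ⟶ E) (h3 : h ≫ h ≫ h = 𝟙 E)
    (hn : s.N.map h ≫ nm = nm ≫ (L'.t.h X).hom) (hA : (L'.t.h (s.N.obj A)).hom = 𝟙 _)
    (a : A ⟶ E) (ha : a + a ≫ h + a ≫ h ≫ h = 0) :
    s.tr (𝟙 _) ≫ s.N.map a ≫ nm = (3 : ℤ) • (s.N.map a ≫ nm) := by
  have h1 : ∀ k : s.N.obj A ⟶ s.N.obj E, k ≫ s.N.map h ≫ nm = k ≫ nm := fun k => by
    rw [hn, ← Category.assoc, L'.t.nat, hA, Category.id_comp]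
  have h2 : s.tr (w s a (a ≫ h) (a ≫ h)) ≫ nm = s.tr (w s a a (a ≫ h ≫ h)) ≫ nm := by
    have h4 := s.tr_comp (𝟙 _) (w s a a (a ≫ h ≫ h)) (s.N.map h)
    rw [s.U.F.map_id, Category.id_comp, Category.id_comp, U_N, w_comp, Category.assoc,
      Category.assoc, h3, Category.comp_id, ← s.tr_conj, w_conj] at h4
    rw [h4, Category.assoc, h1]
  have h4 : s.tr (w s a a a) + s.tr (w s a a (a ≫ h)) + s.tr (w s a a (a ≫ h ≫ h)) = 0 := by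
    rw [← s.tr_add, ← s.tr_add, ← w_add₃, ← w_add₃, ha, w, MonoidalPreadditive.tensor_zero,
      MonoidalPreadditive.tensor_zero, zero_comp, comp_zero, s.tr_zero]
  have h5 := s.tr_comp (𝟙 _) (𝟙 _) (s.N.map a)
  rw [s.U.F.map_id, Category.id_comp, Category.id_comp, Category.id_comp, U_N] at h5
  have h6 := congrArg (· ≫ nm) (N_add' s a (a ≫ h))
  have h7 := congrArg (· ≫ nm) h4
  simp only [eq_neg_of_add_eq_zero_left ha, N_neg, Preadditive.add_comp, Preadditive.neg_comp, h2,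
    s.N.map_comp, Category.assoc, h1, zero_comp, h5] at h6 h7
  rw [← Category.assoc (s.N.map a), h1, Category.assoc, h1] at h6
  linear_combination (norm := module) h7 + h6

end Step

variable {W : Tower}

theorem isTr_iff (t : 𝟙_ W.T₁.C ⟶ W.s₁.O) :
    IsTr t ↔ ε W.s₁.U.F ≫ W.s₁.U.F.map t =
      W.s₁.un _ ≫ (𝟙 _ + W.s₁.γ _ + W.s₁.γ _ ≫ W.s₁.γ _) := by
  rw [IsTr, dd, if_neg (by decide)]

theorem isTr_oe {t : 𝟙_ W.T₁.C ⟶ W.s₁.O} (ht : IsTr t) : t ≫ W.s₁.oe = W.s₁.tr (𝟙 _) := by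
  have h1 : t = W.s₁.un' _ ≫ W.s₁.ind.map (η W.s₁.U.F) := W.s₁.coind_ext (by
    rw [← cancel_epi (ε W.s₁.U.F), reassoc_of% (isTr_iff t).1 ht]
    simp [Step.pr_nat])
  have h2 : W.s₁.ind.map (η W.s₁.U.F) ≫ W.s₁.oe = W.s₁.cu _ := W.s₁.un_ext (by
    rw [Functor.map_comp, Step.un_nat_assoc, un_oe, Step.un_cu, Functor.Monoidal.η_ε])
  rw [h1, Category.assoc, h2, Step.tr_eq, W.s₁.ind.map_id, Category.id_comp]

theorem h_NS (g : W.Geo) (x : Mdl W) : (W.L₁.t.h (W.s₁.N.obj ((Λ W).S 2))).hom = 𝟙 _ := by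
  obtain ⟨ω, -⟩ := g.p1
  have h1 : (W.L₁.t.h W.s₁.Lr).hom = 𝟙 _ := triv_iso _ W.UL.symm (by
    rw [← W.s₂.γ_cube, g.c9.2.1, Category.id_comp, Category.id_comp])
  have h2 : (W.L₁.t.h (W.s₁.N.obj (Λ W).L)).hom = 𝟙 _ :=
    triv_iso _ (W.s₁.N.mapIso x.e.symm ≪≫ ω) (triv_ten _ (W.L₁.tv_h _) (triv_ten _ h1 h1))
  exact triv_iso _ (Functor.Monoidal.μIso W.s₁.N (Λ W).L _).symm (triv_ten _ h2
    (triv_iso _ (Functor.Monoidal.μIso W.s₁.N (Λ W).L _).symm (triv_ten _ h2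
      (triv_iso _ (Functor.Monoidal.εIso W.s₁.N).symm W.L₁.t.one))))

theorem nm_h (x : Mdl W) :
    W.s₁.N.map (x.P.ρ ≫ x.P.ρ ≫ x.P.ρ) ≫ x.nm₁ = x.nm₁ ≫ (W.L₁.t.h x.X₁).hom := by
  have h : W.s₁.N.map x.P.ρ ≫ x.nm₁ = x.nm₁ ≫ W.s₂.γ x.X :=
    x.Y.nm₁_conj.trans (Category.assoc _ _ _).symm
  rw [← W.s₂.γ_cube, Functor.map_comp, Functor.map_comp, Category.assoc, Category.assoc, h,
    reassoc_of% h, reassoc_of% h]

theorem isU_nm (x : Mdl W) {A : W.T₀.C} {a : A ⟶ x.P.E} (ha : x.IsU₀ a) :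
    x.IsU₁ (W.s₁.N.map a ≫ x.nm₁) := by
  have hν : W.s₁.U.F.map (W.s₁.N.map a) ≫ W.s₁.ν.hom.app _ =
      W.s₁.ν.hom.app A ≫ (a ⊗ₘ a ⊗ₘ a) := W.s₁.ν.hom.naturality a
  have e : W.s₁.U.F.map (W.s₁.N.map a ≫ x.nm₁) ≫ x.Y.e.hom = W.s₁.ν.hom.app A ≫
      ((a ⊗ₘ (((((a ≫ x.P.ρ) ≫ x.P.ρ) ≫ x.P.ρ) ⊗ₘ
        ((((((a ≫ x.P.ρ) ≫ x.P.ρ) ≫ x.P.ρ) ≫ x.P.ρ) ≫ x.P.ρ) ≫ x.P.ρ)) ≫ MonObj.mul)) ≫
          MonObj.mul) := by
    rw [Functor.map_comp, Category.assoc, Mdl.nm₁, x.Y.nm₁_res, reassoc_of% hν, Step.mul3,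
      ← id_tensorHom]
    simp only [tensorHom_comp_tensorHom_assoc, Category.assoc,
      Category.comp_id]
  rw [x.isU₁_iff, e, x.isU₀_iso]
  exact ha.mul x (ha.aut.aut.aut.mul x ha.aut.aut.aut.aut.aut.aut)

end Om

open Om in
/-- **OM** -/
theorem om (W : Tower) : OM W := by
  rintro g x ⟨O, _, red, y, hT, hu, -⟩ t ht
  obtain ⟨a, ha⟩ : ∃ a : (Λ W).S 2 ⟶ x.P.E, HRing.of _ _ 2 a = y 0 := by
    have h := hT.x_mem 0
    rw [Top.deg, if_pos dvd_rfl] at h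
    exact h
  have h1 : a + a ≫ x.P.ρ ≫ x.P.ρ ≫ x.P.ρ +
      a ≫ (x.P.ρ ≫ x.P.ρ ≫ x.P.ρ) ≫ x.P.ρ ≫ x.P.ρ ≫ x.P.ρ = 0 := by
    have h := hT.x_tr 0
    have h2 : ∀ b : (Λ W).S 2 ⟶ x.P.E, hA x.P (HRing.of _ _ 2 b) =
        HRing.of _ _ 2 (b ≫ x.P.ρ ≫ x.P.ρ ≫ x.P.ρ) := fun b => HRing.map_of _ 2 b
    rw [← ha, tr, h2, h2, Category.assoc] at h
    apply DirectSum.of_injective (β := (Λ W).Gr x.P.E) 2
    rw [map_zero, ← h]
    exact (map_add _ _ _).trans (congrArg (· + _) (map_add _ _ _))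
  have h2 := three W.s₁ x.nm₁ _ x.P.ρ9 (nm_h x) (h_NS g x) a h1
  have h3 : IsIso _ := isU_nm x (x.isU₀_of_isUnit (a := a) (ha ▸ hu))
  generalize W.s₁.N.map a ≫ x.nm₁ = n at h2 h3
  have h4 : W.s₁.tr (𝟙 (W.s₁.U.F.obj x.X₁)) = (3 : ℤ) • 𝟙 _ := by
    have h5 := W.s₁.tr_whiskerRight (𝟙 (W.s₁.U.F.obj (W.s₁.N.obj ((Λ W).S 2)))) x.X₁
    rw [id_whiskerRight, Category.id_comp, Functor.Monoidal.δ_μ] at h5
    rw [← cancel_epi (n ▷ x.X₁ ≫ x.mul₁), tr_nat, ← h5, ← comp_whiskerRight_assoc, h2,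
      Preadditive.comp_zsmul, Category.comp_id, ← Preadditive.zsmul_comp]
    exact congrArg (· ≫ x.mul₁) ((tensorRight x.X₁).map_zsmul (f := n) (r := 3))
  rw [reassoc_of% isTr_oe ht, ← tr_nat, h4, Preadditive.comp_zsmul, Category.comp_id]

end Vale.Agent.P236Z.SS
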